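import Mathlib

/-!
# P271: the hub statement (graded cones), purely algebraic

Input: `GCone n`, the graded coordinate ring `R` of a cone which is smooth of dimension `n + 1`
outside the vertex.  Output: `GCone.Gen m φ₀`, a homogeneous rational `(n+1)`-form
`f dz_0 ∧ … ∧ dz_n` of degree `m` which is regular outside the vertex and generates the canonical
module at the point `φ₀`.
-/

namespace Vale.Agent.P271.Sch

/-- The graded coordinate ring of a cone, smooth of dimension `n + 1` outside the vertex, for which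
`𝒪(1)` is invertible. -/
structure GCone (n : ℕ) where
  /-- the graded ring -/
  R : Type
  [ring : CommRing R]
  [dom : IsDomain R]
  [alg : Algebra ℂ R]
  /-- the homogeneous elements -/
  A : ℕ → Submodule ℂ R
  [gr : GradedAlgebra A]
  finiteType : Algebra.FiniteType ℂ R
  zero : ∀ a ∈ A 0, ∃ c : ℂ, algebraMap ℂ R c = a
  /-- `R` is regular of dimension `n + 1` at the maximal ideals different from the vertex -/
  regular : ∀ (p : Ideal R) [p.IsMaximal], (∃ k > 0, ∃ s ∈ A k, s ∉ p) →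
    IsRegularLocalRing (Localization.AtPrime p) ∧
      ringKrullDim (Localization.AtPrime p) = (n + 1 : ℕ)
  /-- `𝒪(1)` is invertible -/
  free : ∀ (p : Ideal R) [p.IsMaximal], (∃ k > 0, ∃ s ∈ A k, s ∉ p) →
    ∃ k, ∃ s ∈ A k, ∃ s' ∈ A (k + 1), s ∉ p ∧ s' ∉ p

attribute [instance] GCone.ring GCone.dom GCone.alg GCone.gr

namespace GCone

variable {n : ℕ} (C : GCone n)

/-- The field of fractions. -/
abbrev K : Type := FractionRing C.R

/-- The complex points of the cone. -/
abbrev Pt : Type := C.R →ₐ[ℂ] ℂ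

variable {C}

/-- The point is not the vertex. -/
def NV (φ : C.Pt) : Prop := ∃ k > 0, ∃ s ∈ C.A k, φ s ≠ 0

/-- The rational function `f` is regular at the point `φ`. -/
def RegAt (φ : C.Pt) (f : C.K) : Prop :=
  ∃ a b : C.R, φ b ≠ 0 ∧ f * algebraMap C.R C.K b = algebraMap C.R C.K a

/-- The rational vector field `D` is regular at the point `φ`. -/
def RegDer (φ : C.Pt) (D : Derivation ℂ C.K C.K) : Prop :=
  ∀ f : C.K, RegAt φ f → RegAt φ (D f)

/-- The value of the form `dz_0 ∧ … ∧ dz_n` at the vector fields `D_0, …, D_n`. -/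
noncomputable def jac (z : Fin (n + 1) → C.R) (D : Fin (n + 1) → Derivation ℂ C.K C.K) : C.K :=
  (Matrix.of fun i j => D i (algebraMap C.R C.K (z j))).det

/-- There is a form `σ = (a/b) dz_0 ∧ … ∧ dz_n` (`a`, `b`, `z_j` homogeneous), homogeneous of
degree `m`, which is regular at all points different from the vertex and generates the module of
regular forms at `φ₀`. -/
def Gen (m : ℕ) (φ₀ : C.Pt) : Prop :=
  ∃ (z : Fin (n + 1) → C.R) (d : Fin (n + 1) → ℕ) (a b : C.R) (i j : ℕ),
    (∀ k, z k ∈ C.A (d k)) ∧ a ∈ C.A i ∧ b ∈ C.A j ∧ b ≠ 0 ∧ i + ∑ k, d k = m + j ∧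
    (∀ φ : C.Pt, NV φ → ∀ D : Fin (n + 1) → Derivation ℂ C.K C.K, (∀ k, RegDer φ (D k)) →
      RegAt φ (algebraMap C.R C.K a / algebraMap C.R C.K b * jac z D)) ∧
    ∃ D : Fin (n + 1) → Derivation ℂ C.K C.K, (∀ k, RegDer φ₀ (D k)) ∧
      algebraMap C.R C.K a / algebraMap C.R C.K b * jac z D ≠ 0 ∧
      RegAt φ₀ (algebraMap C.R C.K a / algebraMap C.R C.K b * jac z D)⁻¹

end GCone

/-- The hub theorem: `K_X + mL` is globally generated for `m ≥ n + 1`. -/
def HubFujita : Prop :=
  ∀ (n : ℕ), 1 ≤ n → ∀ (C : GCone n) (m : ℕ), n + 1 ≤ m → ∀ φ : C.Pt, GCone.NV φ →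
    GCone.Gen m φ

end Vale.Agent.P271.Sch
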