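import Mathlib

/-!
# Derivations of the rational function field `K(T)`
-/

open Polynomial

namespace Vale.Agent.P271.Sch

variable {k K F : Type} [Field k] [Field K] [Algebra k K] [Field F] [Algebra (Polynomial K) F]
  [IsFractionRing (Polynomial K) F] [Algebra k F] [IsScalarTower k (Polynomial K) F]

/-- The extension of a derivation of `K` to a derivation of `K(T)` with a given value at `T`. -/
theorem exists_der (v : Derivation k K K) (c : F) : ∃ D : Derivation k F F,
    (∀ a, D (algebraMap (Polynomial K) F (C a)) = algebraMap (Polynomial K) F (C (v a))) ∧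
      D (algebraMap (Polynomial K) F Polynomial.X) = c := by
  set ι := algebraMap (Polynomial K) F with hι
  have hιinj : Function.Injective ι := IsFractionRing.injective (Polynomial K) F
  let Φ₀ : K →+* TrivSqZeroExt F F :=
    { toFun := fun a => TrivSqZeroExt.inl (ι (C a)) + TrivSqZeroExt.inr (ι (C (v a)))
      map_one' := by
        apply TrivSqZeroExt.ext <;> simp
      map_mul' := fun a b => by
        apply TrivSqZeroExt.ext
        · simp
        · simp only [TrivSqZeroExt.snd_add, TrivSqZeroExt.snd_inl, TrivSqZeroExt.snd_inr, zero_add,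
            TrivSqZeroExt.snd_mul, TrivSqZeroExt.fst_add, TrivSqZeroExt.fst_inl,
            TrivSqZeroExt.fst_inr, add_zero, Derivation.leibniz, smul_eq_mul, map_add, map_mul,
            op_smul_eq_smul]
      map_zero' := by
        apply TrivSqZeroExt.ext <;> simp
      map_add' := fun a b => by
        apply TrivSqZeroExt.ext <;> simp }
  let Φ₁ : Polynomial K →+* TrivSqZeroExt F F :=
    Polynomial.eval₂RingHom Φ₀ (TrivSqZeroExt.inl (ι Polynomial.X) + TrivSqZeroExt.inr c)
  have hC : ∀ a, Φ₁ (C a) = Φ₀ a := fun a => by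
    change Polynomial.eval₂ Φ₀ _ (C a) = _
    rw [Polynomial.eval₂_C]
  have hX : Φ₁ Polynomial.X = TrivSqZeroExt.inl (ι Polynomial.X) + TrivSqZeroExt.inr c := by
    change Polynomial.eval₂ Φ₀ _ Polynomial.X = _
    rw [Polynomial.eval₂_X]
  let fst : TrivSqZeroExt F F →+* F := (TrivSqZeroExt.fstHom F F F : TrivSqZeroExt F F →+* F)
  have hfst : ∀ z, fst z = z.fst := fun _ => rfl
  have h1 : fst.comp Φ₁ = ι := by
    refine Polynomial.ringHom_ext (fun a => ?_) ?_
    · rw [RingHom.comp_apply, hC, hfst]
      simp [Φ₀]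
    · rw [RingHom.comp_apply, hX, hfst]
      simp
  have hunit : ∀ y : nonZeroDivisors (Polynomial K), IsUnit (Φ₁ y) := by
    intro y
    rw [TrivSqZeroExt.isUnit_iff_isUnit_fst]
    have h2 : (Φ₁ y).fst = ι y := congrArg (fun f => f (y : Polynomial K)) h1
    rw [h2]
    exact IsUnit.mk0 _ ((map_ne_zero_iff ι hιinj).2 (nonZeroDivisors.ne_zero y.2))
  let Φ : F →+* TrivSqZeroExt F F := IsLocalization.lift (M := nonZeroDivisors (Polynomial K)) hunit
  have hΦ : ∀ f, Φ (ι f) = Φ₁ f := fun f => IsLocalization.lift_eq _ _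
  have h3 : fst.comp Φ = RingHom.id F := by
    refine IsLocalization.ringHom_ext (nonZeroDivisors (Polynomial K)) ?_
    refine RingHom.ext fun f => ?_
    change fst (Φ (ι f)) = ι f
    rw [hΦ]
    exact congrArg (fun g => g f) h1
  have h4 : ∀ z, (Φ z).fst = z := fun z => congrArg (fun g => g z) h3
  have hk : ∀ r : k, (Φ (algebraMap k F r)) = TrivSqZeroExt.inl (algebraMap k F r) := by
    intro r
    have e1 : algebraMap k F r = ι (C (algebraMap k K r)) := by
      rw [IsScalarTower.algebraMap_apply k (Polynomial K) F]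
      rfl
    rw [e1, hΦ, hC]
    apply TrivSqZeroExt.ext
    · simp [Φ₀]
    · simp [Φ₀]
  let Dl : F →ₗ[k] F :=
    { toFun := fun z => (Φ z).snd
      map_add' := fun x y => by rw [map_add, TrivSqZeroExt.snd_add]
      map_smul' := fun r x => by
        rw [Algebra.smul_def, map_mul, hk, TrivSqZeroExt.snd_mul, TrivSqZeroExt.fst_inl,
          TrivSqZeroExt.snd_inl, smul_zero, add_zero, smul_eq_mul, RingHom.id_apply,
          Algebra.smul_def] }
  refine ⟨Derivation.mk' Dl fun x y => ?_, fun a => ?_, ?_⟩
  · change (Φ (x * y)).snd = x • (Φ y).snd + y • (Φ x).snd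
    rw [map_mul, TrivSqZeroExt.snd_mul, h4, h4, op_smul_eq_smul]
  · change (Φ (ι (C a))).snd = _
    rw [hΦ, hC]
    simp [Φ₀]
  · change (Φ (ι Polynomial.X)).snd = _
    rw [hΦ, hX]
    simp

omit [Algebra k K] [IsScalarTower k (Polynomial K) F] in
/-- A derivation of `K(T)` which vanishes on `K` and on `T` is zero. -/
theorem der_eq_zero {D : Derivation k F F}
    (h : ∀ a, D (algebraMap (Polynomial K) F (C a)) = 0)
    (hX : D (algebraMap (Polynomial K) F Polynomial.X) = 0) : D = 0 := by
  set ι := algebraMap (Polynomial K) F with hι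
  have hιinj : Function.Injective ι := IsFractionRing.injective (Polynomial K) F
  have h1 : ∀ f, D (ι f) = 0 := by
    intro f
    induction f using Polynomial.induction_on' with
    | add p q hp hq => rw [map_add, map_add, hp, hq, add_zero]
    | monomial n a =>
      rw [← C_mul_X_pow_eq_monomial, map_mul, map_pow, Derivation.leibniz, Derivation.leibniz_pow,
        h, hX]
      simp
  ext z
  obtain ⟨p, q, hq, rfl⟩ := IsFractionRing.div_surjective (A := Polynomial K) z
  have hq0 : ι q ≠ 0 := (map_ne_zero_iff ι hιinj).2 (nonZeroDivisors.ne_zero hq)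
  have h2 : D (ι p / ι q * ι q) = 0 := by
    rw [div_mul_cancel₀ _ hq0]
    exact h1 p
  rw [Derivation.leibniz, h1 q, smul_zero, zero_add, smul_eq_mul] at h2
  rw [Derivation.zero_apply]
  exact (mul_eq_zero.1 h2).resolve_left hq0

/-- A derivation on `K` with values in an extension which vanishes on local coordinates is
zero. -/
theorem der_eq_zero_of_coords {k K F : Type} [Field k] [Field K] [Algebra k K] [Field F]
    {n : ℕ} {t : Fin n → K}
    (h : ∀ v : Derivation k K K, (∀ i, v (t i) = 0) → v = 0) (j : K →+* F) (d : K → F)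
    (hadd : ∀ a b, d (a + b) = d a + d b) (hmul : ∀ a b, d (a * b) = j a * d b + j b * d a)
    (hk : ∀ r : k, d (algebraMap k K r) = 0) (ht : ∀ i, d (t i) = 0) (a : K) : d a = 0 := by
  have hspan : Submodule.span K (Set.range fun i => KaehlerDifferential.D k K (t i)) = ⊤ := by
    by_contra hne
    obtain ⟨f, hf0, hf⟩ := Submodule.exists_le_ker_of_lt_top _ (lt_top_iff_ne_top.2 hne)
    apply hf0
    have h1 : f.compDer (KaehlerDifferential.D k K) = 0 := by
      refine h _ fun i => ?_
      exact hf (Submodule.subset_span ⟨i, rfl⟩)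
    refine LinearMap.ext_on_range (v := fun a : K => KaehlerDifferential.D k K a)
      (KaehlerDifferential.span_range_derivation k K) fun a => ?_
    exact congrArg (fun D => D a) h1
  let _ : Module K F := Module.compHom F j
  have hsm : ∀ (a : K) (x : F), a • x = j a * x := fun _ _ => rfl
  let _ : Module k F := Module.compHom F (j.comp (algebraMap k K))
  have hsm' : ∀ (a : k) (x : F), a • x = j (algebraMap k K a) * x := fun _ _ => rfl
  have : IsScalarTower k K F := ⟨fun a b x => by
    rw [hsm, hsm', hsm, Algebra.smul_def, map_mul, mul_assoc]⟩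
  let Dl : K →ₗ[k] F :=
    { toFun := d
      map_add' := hadd
      map_smul' := fun r x => by
        rw [Algebra.smul_def, hmul, hk, mul_zero, add_zero, RingHom.id_apply, hsm'] }
  let D : Derivation k K F := Derivation.mk' Dl fun x y => hmul x y
  have h0 : D.liftKaehlerDifferential = 0 := by
    refine LinearMap.ext_on_range hspan fun i => ?_
    rw [Derivation.liftKaehlerDifferential_comp_D, LinearMap.zero_apply]
    exact ht i
  have h2 := D.liftKaehlerDifferential_comp_D a
  rw [h0, LinearMap.zero_apply] at h2
  exact h2.symm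

end Vale.Agent.P271.Sch
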