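import Mathlib

/-!
# Commutative algebra for the local rings of the section ring
-/

open IsLocalRing

namespace Vale.Agent.P271.Sch

section Loc

variable {F A B : Type} [Field F] [CommRing A] [CommRing B]
  (α : A →+* F) (hα : Function.Injective α) (p : Ideal A) [p.IsPrime]

include hα in
theorem isUnit_alpha (y : p.primeCompl) : IsUnit (α y) := by
  refine IsUnit.mk0 _ fun h => y.2 ?_
  have : (y : A) = 0 := hα (by rw [h, map_zero])
  rw [this]
  exact zero_mem p

/-- The embedding of the local ring. -/
noncomputable def jLoc : Localization.AtPrime p →+* F :=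
  IsLocalization.lift (M := p.primeCompl) (isUnit_alpha α hα p)

theorem jLoc_algebraMap (a : A) : jLoc α hα p (algebraMap A _ a) = α a :=
  IsLocalization.lift_eq _ _

theorem jLoc_injective : Function.Injective (jLoc α hα p) := by
  rw [injective_iff_map_eq_zero]
  intro z hz
  obtain ⟨⟨a, s⟩, h⟩ := IsLocalization.surj p.primeCompl z
  have h1 := congrArg (jLoc α hα p) h
  rw [map_mul, hz, zero_mul, jLoc_algebraMap] at h1
  have h2 : a = 0 := hα (by rw [← h1, map_zero])
  have h3 : z * algebraMap A _ (s : A) = 0 := by rw [h, h2, map_zero]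
  have h4 : IsUnit (algebraMap A (Localization.AtPrime p) (s : A)) :=
    IsLocalization.map_units _ s
  exact (h4.mul_left_eq_zero).1 h3

theorem mem_range_jLoc {f : F} :
    f ∈ (jLoc α hα p).range ↔ ∃ a s : A, s ∉ p ∧ f * α s = α a := by
  constructor
  · rintro ⟨z, rfl⟩
    obtain ⟨⟨a, s⟩, h⟩ := IsLocalization.surj p.primeCompl z
    have h1 := congrArg (jLoc α hα p) h
    rw [map_mul, jLoc_algebraMap, jLoc_algebraMap] at h1
    exact ⟨a, s, s.2, h1⟩
  · rintro ⟨a, s, hs, h⟩
    refine ⟨IsLocalization.mk' _ a (⟨s, hs⟩ : p.primeCompl), ?_⟩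
    have h1 := IsLocalization.mk'_spec (Localization.AtPrime p) a (⟨s, hs⟩ : p.primeCompl)
    have h2 := congrArg (jLoc α hα p) h1
    rw [map_mul, jLoc_algebraMap, jLoc_algebraMap, ← h] at h2
    exact mul_right_cancel₀ (isUnit_alpha α hα p ⟨s, hs⟩).ne_zero h2

/-- The local ring as a subring of the field. -/
noncomputable abbrev locF : Subring F := (jLoc α hα p).range

theorem alpha_mem (a : A) : α a ∈ locF α hα p := ⟨_, jLoc_algebraMap α hα p a⟩

theorem inv_alpha_mem {s : A} (hs : s ∉ p) : (α s)⁻¹ ∈ locF α hα p := by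
  rw [mem_range_jLoc]
  refine ⟨1, s, hs, ?_⟩
  rw [map_one, inv_mul_cancel₀ (isUnit_alpha α hα p ⟨s, hs⟩).ne_zero]

/-- A derivation of the field which maps `A` to the local ring preserves the local ring. -/
theorem der_mem [Algebra ℂ F] (D : Derivation ℂ F F) (hD : ∀ a, D (α a) ∈ locF α hα p) {f : F}
    (hf : f ∈ locF α hα p) : D f ∈ locF α hα p := by
  obtain ⟨a, s, hs, h⟩ := (mem_range_jLoc α hα p).1 hf
  have h0 : α s ≠ 0 := (isUnit_alpha α hα p ⟨s, hs⟩).ne_zero
  have h1 := congrArg D h
  rw [Derivation.leibniz, smul_eq_mul, smul_eq_mul] at h1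
  have h2 : D f = (D (α a) - f * D (α s)) * (α s)⁻¹ := by
    rw [eq_mul_inv_iff_mul_eq₀ h0, ← h1]
    ring
  rw [h2]
  exact mul_mem (sub_mem (hD a) (mul_mem hf (hD s))) (inv_alpha_mem α hα p hs)

/-- If `A ⊆ B ⊆ A_p` in a field then `A_p` is a local ring of `B`. -/
theorem sandwich (β : B →+* F) (hβ : Function.Injective β) (h1 : ∀ a, ∃ b, β b = α a)
    (h2 : ∀ b, β b ∈ locF α hα p) :
    ∃ (q : Ideal B) (_ : q.IsPrime), Nonempty (Localization.AtPrime p ≃+* Localization.AtPrime q) := by
  have hj := jLoc_injective α hα p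
  choose γ₀ hγ₀ using h2
  let γ : B →+* Localization.AtPrime p :=
    { toFun := γ₀
      map_one' := hj (by rw [hγ₀, map_one, map_one])
      map_mul' := fun x y => hj (by rw [hγ₀, map_mul, map_mul, hγ₀, hγ₀])
      map_zero' := hj (by rw [hγ₀, map_zero, map_zero])
      map_add' := fun x y => hj (by rw [hγ₀, map_add, map_add, hγ₀, hγ₀]) }
  have hγ : ∀ b, jLoc α hα p (γ b) = β b := hγ₀
  have hγinj : Function.Injective γ := fun x y h => hβ (by rw [← hγ, ← hγ, h])
  let q : Ideal B := (maximalIdeal (Localization.AtPrime p)).comap γ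
  have hq : q.IsPrime := Ideal.IsPrime.comap γ
  refine ⟨q, hq, ?_⟩
  let _ : Algebra B (Localization.AtPrime p) := γ.toAlgebra
  have hloc : IsLocalization.AtPrime (Localization.AtPrime p) q := by
    refine ⟨fun y => ?_, fun z => ?_, fun {x y} h => ⟨1, ?_⟩⟩
    · have h3 : (y : B) ∉ q := y.2
      have h4 : γ y ∉ maximalIdeal (Localization.AtPrime p) := h3
      rw [mem_maximalIdeal, mem_nonunits_iff, not_not] at h4
      exact h4
    · obtain ⟨⟨a, s⟩, h⟩ := IsLocalization.surj p.primeCompl z
      obtain ⟨ba, hba⟩ := h1 a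
      obtain ⟨bs, hbs⟩ := h1 s
      have e1 : γ ba = algebraMap A _ a := hj (by rw [hγ, hba, jLoc_algebraMap])
      have e2 : γ bs = algebraMap A _ (s : A) := hj (by rw [hγ, hbs, jLoc_algebraMap])
      have hbsq : bs ∉ q := by
        intro h5
        have h6 : γ bs ∈ maximalIdeal (Localization.AtPrime p) := h5
        rw [e2, mem_maximalIdeal, mem_nonunits_iff] at h6
        exact h6 (IsLocalization.map_units _ s)
      refine ⟨⟨ba, ⟨bs, hbsq⟩⟩, ?_⟩
      change z * γ bs = γ ba
      rw [e1, e2]
      exact h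
    · have h3 : x = y := hγinj h
      rw [h3]
  exact ⟨(IsLocalization.algEquiv q.primeCompl (Localization.AtPrime p)
    (Localization.AtPrime q)).toRingEquiv⟩

end Loc

/-- Lower bound for the embedding dimension. -/
theorem le_spanFinrank {R : Type} [CommRing R] [IsLocalRing R] [IsNoetherianRing R] {N : ℕ}
    (d : Fin N → R → R) (hadd : ∀ i x y, d i (x + y) = d i x + d i y)
    (hmul : ∀ i x y, d i (x * y) = x * d i y + y * d i x) (t : Fin N → R)
    (ht : ∀ i, t i ∈ maximalIdeal R) (hd : ∀ i j, d i (t j) = if i = j then 1 else 0) :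
    N ≤ (maximalIdeal R).spanFinrank := by
  classical
  have hfg := (maximalIdeal R).fg_of_isNoetherianRing
  have hfin := Submodule.FG.finite_generators hfg
  set S : Set R := (maximalIdeal R).generators with hS
  let φ : R → (Fin N → ResidueField R) := fun f i => residue R (d i f)
  have hd0 : ∀ i, d i 0 = 0 := fun i => by
    have := hadd i 0 0
    rw [add_zero] at this
    exact left_eq_add.1 this
  have hφadd : ∀ x y, φ (x + y) = φ x + φ y := fun x y => by
    funext i
    simp only [φ, hadd, map_add, Pi.add_apply]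
  have hφmul : ∀ a x, x ∈ maximalIdeal R → φ (a * x) = residue R a • φ x := fun a x hx => by
    funext i
    have h0 : residue R x = 0 := (residue_eq_zero_iff x).2 hx
    simp only [φ, hmul, map_add, map_mul, Pi.smul_apply, smul_eq_mul, h0, zero_mul, add_zero]
  have hspan : ∀ f ∈ maximalIdeal R, φ f ∈ Submodule.span (ResidueField R) (φ '' S) := by
    intro f hf
    have hf' : f ∈ Submodule.span R S := by
      rw [hS, (maximalIdeal R).span_generators]
      exact hf
    induction hf' using Submodule.span_induction with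
    | mem x hx => exact Submodule.subset_span ⟨x, hx, rfl⟩
    | zero =>
      have : φ 0 = 0 := by
        funext i
        simp only [φ, hd0, map_zero, Pi.zero_apply]
      rw [this]
      exact Submodule.zero_mem _
    | add x y hx hy h1 h2 =>
      rw [hφadd]
      have hx' : x ∈ maximalIdeal R := by
        rw [← (maximalIdeal R).span_generators]; exact hx
      have hy' : y ∈ maximalIdeal R := by
        rw [← (maximalIdeal R).span_generators]; exact hy
      exact Submodule.add_mem _ (h1 hx') (h2 hy')
    | smul a x hx h1 =>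
      have hx' : x ∈ maximalIdeal R := by
        rw [← (maximalIdeal R).span_generators]; exact hx
      rw [smul_eq_mul, hφmul a x hx']
      exact Submodule.smul_mem _ _ (h1 hx')
  have htop : Submodule.span (ResidueField R) (φ '' S) = ⊤ := by
    rw [eq_top_iff, ← (Pi.basisFun (ResidueField R) (Fin N)).span_eq, Submodule.span_le]
    rintro _ ⟨j, rfl⟩
    have h1 : Pi.basisFun (ResidueField R) (Fin N) j = φ (t j) := by
      funext i
      rw [Pi.basisFun_apply]
      simp only [φ, hd, Pi.single_apply]
      split_ifs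
      · exact (map_one _).symm
      · exact (map_zero _).symm
    rw [h1]
    exact hspan _ (ht j)
  have hfinS : (φ '' S).Finite := hfin.image φ
  have h2 : N = Module.finrank (ResidueField R) (Submodule.span (ResidueField R) (φ '' S)) := by
    rw [htop, finrank_top, Module.finrank_fin_fun]
  rw [h2]
  have _ := hfinS.fintype
  have h3 := finrank_span_le_card (R := ResidueField R) (φ '' S)
  refine h3.trans ?_
  rw [← Set.ncard_eq_toFinset_card']
  refine (Set.ncard_image_le hfin).trans ?_
  rw [hS, Submodule.FG.generators_ncard hfg]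

section Val

/-- A valuation ring of the field which contains `A` and is centred in the maximal ideal `p`. -/
theorem exists_valuation {F A : Type} [Field F] [CommRing A] (α : A →+* F)
    (p : Ideal A) (hp : p.IsMaximal) (hα : Function.Injective α) :
    ∃ W : ValuationSubring F, (∀ a, α a ∈ W) ∧ (∀ a ∈ p, W.valuation (α a) < 1) ∧
      ∀ a, a ∉ p → W.valuation (α a) = 1 := by
  let e : A ≃+* α.range := RingEquiv.ofBijective α.rangeRestrict
    ⟨fun x y h => hα (congrArg Subtype.val h), α.rangeRestrict_surjective⟩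
  let P : Ideal α.range := p.comap (e.symm : α.range →+* A)
  have hP : P ≠ ⊤ := by
    intro h
    have h1 : (1 : α.range) ∈ P := by rw [h]; trivial
    have h2 : e.symm (1 : α.range) ∈ p := h1
    rw [map_one] at h2
    exact hp.ne_top ((Ideal.eq_top_iff_one _).2 h2)
  obtain ⟨W, hW1, hW2⟩ := P.image_subset_nonunits_valuationSubring hP
  have hA : ∀ a, α a ∈ W := fun a => hW1 ⟨a, rfl⟩
  have hlt : ∀ a ∈ p, W.valuation (α a) < 1 := by
    intro a ha
    have h1 : (α a) ∈ W.nonunits := by
      refine hW2 ⟨e a, ?_, rfl⟩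
      change e.symm (e a) ∈ p
      rwa [RingEquiv.symm_apply_apply]
    exact h1
  refine ⟨W, hA, hlt, fun a ha => ?_⟩
  obtain ⟨b, c, hc, hbc⟩ := hp.exists_inv ha
  have h1 : α b * α a = 1 - α c := by
    rw [← map_mul, ← map_one α, ← map_sub, ← hbc]
    congr 1
    ring
  have h2 : W.valuation (1 - α c) = 1 := by
    have h3 : W.valuation (α c) < W.valuation 1 := by
      rw [map_one]
      exact hlt c hc
    rw [Valuation.map_sub_eq_of_lt_left _ h3, map_one]
  have h4 : W.valuation (α b) * W.valuation (α a) = 1 := by rw [← map_mul, h1, h2]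
  have h5 : W.valuation (α a) ≤ 1 := (W.valuation_le_one_iff _).2 (hA a)
  have h6 : W.valuation (α b) ≤ 1 := (W.valuation_le_one_iff _).2 (hA b)
  refine le_antisymm h5 ?_
  calc (1 : _) = W.valuation (α b) * W.valuation (α a) := h4.symm
    _ ≤ 1 * W.valuation (α a) := mul_le_mul_left h6 _
    _ = W.valuation (α a) := one_mul _

end Val

end Vale.Agent.P271.Sch
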