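import Vale.Agent.P271.Sch.Loc

/-!
# Local frames of the section ring and the dimension of its local rings
-/

open AlgebraicGeometry Order Polynomial IsLocalRing

namespace Vale.Agent.P271.Sch

/-- The residue fields at the maximal ideals are the complex numbers. -/
theorem exists_const_sub {A : Type} [CommRing A] [Algebra ℂ A] [Algebra.FiniteType ℂ A]
    (p : Ideal A) [p.IsMaximal] (a : A) : ∃ c : ℂ, a - algebraMap ℂ A c ∈ p := by
  let _ : Field (A ⧸ p) := Ideal.Quotient.field p
  have h1 : Module.Finite ℂ (A ⧸ p) := finite_of_finite_type_of_isJacobsonRing ℂ (A ⧸ p)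
  have h2 : Algebra.IsIntegral ℂ (A ⧸ p) := inferInstance
  obtain ⟨c, hc⟩ := (IsAlgClosed.algebraMap_bijective_of_isIntegral (k := ℂ) (K := A ⧸ p)).2
    (Ideal.Quotient.mk p a)
  refine ⟨c, ?_⟩
  rw [← Ideal.Quotient.eq_zero_iff_mem, map_sub, ← hc]
  exact sub_self _

section LocDim

variable {F A : Type} [Field F] [CommRing A] [Algebra ℂ A] [Algebra ℂ F]
  (α : A →+* F) (hα : Function.Injective α) (p : Ideal A) [p.IsMaximal]

/-- Elements of the local ring differ from constants by elements of the maximal ideal. -/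
theorem exists_const_sub_loc [Algebra.FiniteType ℂ A] (z : Localization.AtPrime p) :
    ∃ c : ℂ, z - algebraMap A _ (algebraMap ℂ A c) ∈ maximalIdeal (Localization.AtPrime p) := by
  obtain ⟨⟨a, s⟩, h⟩ := IsLocalization.surj p.primeCompl z
  obtain ⟨ca, hca⟩ := exists_const_sub p a
  obtain ⟨cs, hcs⟩ := exists_const_sub p (s : A)
  have hcs0 : cs ≠ 0 := by
    rintro rfl
    rw [map_zero, sub_zero] at hcs
    exact s.2 hcs
  refine ⟨ca / cs, ?_⟩
  have hu : IsUnit (algebraMap A (Localization.AtPrime p) (s : A)) :=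
    IsLocalization.map_units _ s
  have h1 : (z - algebraMap A _ (algebraMap ℂ A (ca / cs))) * algebraMap A _ (s : A) =
      algebraMap A _ ((a - algebraMap ℂ A ca) -
        algebraMap ℂ A (ca / cs) * ((s : A) - algebraMap ℂ A cs)) := by
    have e1 : algebraMap ℂ A ca = algebraMap ℂ A (ca / cs) * algebraMap ℂ A cs := by
      rw [← map_mul, div_mul_cancel₀ _ hcs0]
    rw [sub_mul]
    change z * algebraMap A _ (s : A) - _ = _
    rw [h]
    change algebraMap A (Localization.AtPrime p) a - _ = _
    rw [← map_mul, ← map_sub]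
    congr 1
    rw [e1]
    ring
  have h2 : (z - algebraMap A _ (algebraMap ℂ A (ca / cs))) * algebraMap A _ (s : A) ∈
      maximalIdeal (Localization.AtPrime p) := by
    rw [h1]
    have h3 : (a - algebraMap ℂ A ca) - algebraMap ℂ A (ca / cs) * ((s : A) - algebraMap ℂ A cs) ∈ p :=
      p.sub_mem hca (p.mul_mem_left _ hcs)
    rw [← Localization.AtPrime.map_eq_maximalIdeal]
    exact Ideal.mem_map_of_mem _ h3
  rwa [Ideal.mul_unit_mem_iff_mem _ hu] at h2

/-- The dimension of a regular local ring with `N` dual derivations is at least `N`. -/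
theorem le_dim [Algebra.FiniteType ℂ A] [IsRegularLocalRing (Localization.AtPrime p)]
    (hc : ∀ c : ℂ, α (algebraMap ℂ A c) = algebraMap ℂ F c) {N : ℕ}
    (D : Fin N → Derivation ℂ F F) (hD : ∀ i, ∀ f ∈ locF α hα p, D i f ∈ locF α hα p)
    (t : Fin N → F) (ht : ∀ i, t i ∈ locF α hα p)
    (hDt : ∀ i j, D i (t j) = if i = j then 1 else 0) :
    (N : WithBot ℕ∞) ≤ ringKrullDim (Localization.AtPrime p) := by
  have hj := jLoc_injective α hα p
  choose z hz using ht
  choose c hc' using fun i => exists_const_sub_loc p (z i)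
  choose d hd using fun (i : Fin N) (r : Localization.AtPrime p) => hD i _ ⟨r, rfl⟩
  have h1 : N ≤ (maximalIdeal (Localization.AtPrime p)).spanFinrank := by
    refine le_spanFinrank d (fun i x y => hj ?_) (fun i x y => hj ?_)
      (fun i => z i - algebraMap A _ (algebraMap ℂ A (c i))) hc' (fun i j => hj ?_)
    · rw [hd, map_add, map_add, map_add, hd, hd]
    · rw [hd, map_mul, Derivation.leibniz, map_add, map_mul, map_mul, hd, hd, smul_eq_mul,
        smul_eq_mul]
    · rw [hd, map_sub, hz, jLoc_algebraMap, hc, map_sub, Derivation.map_algebraMap, sub_zero, hDt]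
      split_ifs
      · exact (map_one _).symm
      · exact (map_zero _).symm
  rw [← (isRegularLocalRing_iff _).1 ‹_›]
  exact_mod_cast h1

end LocDim

open Vale.Agent.P299 Vale.Agent.P299.Q

variable {V : Q.Var} {L : Q.Div V.X}

/-- `τ = gT`. -/
noncomputable def tau (g : V.K) : KT V := iT V (monomial 1 g)

theorem iT_monomial (g : V.K) (o : V.K) (m : ℕ) :
    iT V (monomial m (o * g ^ m)) = iT V (C o) * tau g ^ m := by
  rw [tau, ← map_pow, ← map_mul, monomial_pow, C_mul_monomial, one_mul]

/-- The extension of a frame at `x` to `K(V)(T)`: explicit form. -/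
structure Ext (g : V.K) {n : ℕ} (w : Fin n → V.Der)
    (W : Fin (n + 1) → Derivation ℂ (KT V) (KT V)) : Prop where
  zero_C : ∀ a, W 0 (iT V (C a)) = 0
  zero_X : W 0 (iT V Polynomial.X) = iT V (C g⁻¹)
  succ_C : ∀ i a, W (Fin.succ i) (iT V (C a)) = iT V (C (w i a))
  succ_X : ∀ i, W (Fin.succ i) (iT V Polynomial.X) = -(iT V (C (w i g / g)) * iT V Polynomial.X)

theorem exists_ext (g : V.K) {n : ℕ} (w : Fin n → V.Der) : ∃ W, Ext g w W := by
  obtain ⟨W₀, h1, h2⟩ := exists_der (k := ℂ) (K := V.K) (F := KT V) 0 (iT V (C g⁻¹))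
  choose W h3 h4 using fun i => exists_der (k := ℂ) (K := V.K) (F := KT V) (w i)
    (-(iT V (C (w i g / g)) * iT V Polynomial.X))
  refine ⟨Fin.cons W₀ W, ⟨fun a => ?_, h2, fun i a => ?_, fun i => ?_⟩⟩
  · rw [Fin.cons_zero]
    refine (h1 a).trans ?_
    rw [Derivation.zero_apply, C_0, map_zero]
  · rw [Fin.cons_succ]
    exact h3 i a
  · rw [Fin.cons_succ]
    exact h4 i

theorem tau_eq (g : V.K) : tau g = iT V (C g) * iT V Polynomial.X := by
  rw [tau, ← map_mul, ← C_mul_X_eq_monomial]

variable {g : V.K} {n : ℕ} {w : Fin n → V.Der} {W : Fin (n + 1) → Derivation ℂ (KT V) (KT V)}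

theorem Ext.zero_tau (h : Ext g w W) (hg : g ≠ 0) : W 0 (tau g) = 1 := by
  rw [tau_eq, Derivation.leibniz, h.zero_C, h.zero_X, smul_zero, add_zero, smul_eq_mul, ← map_mul,
    ← C_mul, mul_inv_cancel₀ hg, C_1, map_one]

theorem Ext.succ_tau (h : Ext g w W) (hg : g ≠ 0) (i : Fin n) : W (Fin.succ i) (tau g) = 0 := by
  rw [tau_eq, Derivation.leibniz, h.succ_C, h.succ_X, smul_eq_mul, smul_eq_mul]
  have h1 : iT V (C (w i g)) = iT V (C (w i g / g)) * iT V (C g) := by
    rw [← map_mul, ← C_mul, div_mul_cancel₀ _ hg]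
  rw [h1]
  ring

/-- A derivation which is regular on `O_x` and on `τ` is regular. -/
theorem der_mem_locF (hL : IsAmple L) {p : Ideal (secRing L)} [p.IsPrime] {x : V.X}
    (hp : LiesOver p x) (hg : GenAt L g x) (E : Derivation ℂ (KT V) (KT V))
    (h1 : ∀ o ∈ locRing V x, E (iT V (C o)) ∈ locF (alpha L) (alpha_injective L) p)
    (h2 : E (tau g) ∈ locF (alpha L) (alpha_injective L) p) {f : KT V}
    (hf : f ∈ locF (alpha L) (alpha_injective L) p) :
    E f ∈ locF (alpha L) (alpha_injective L) p := by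
  have hC : ∀ o ∈ locRing V x, iT V (C o) ∈ locF (alpha L) (alpha_injective L) p := by
    intro o ho
    have := monomial_mem_locF hL hp hg ho 0
    rwa [pow_zero, mul_one, monomial_zero_left] at this
  have htau : tau g ∈ locF (alpha L) (alpha_injective L) p := by
    have := monomial_mem_locF hL hp hg (one_mem (locRing V x)) 1
    rwa [pow_one, one_mul] at this
  refine der_mem (alpha L) (alpha_injective L) p E (fun a => ?_) hf
  rw [alpha_apply, a.1.as_sum_support, map_sum, map_sum]
  refine sum_mem fun m _ => ?_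
  have h3 : a.1.coeff m = (a.1.coeff m / g ^ m) * g ^ m := by
    rw [div_mul_cancel₀ _ (pow_ne_zero _ hg.1)]
  have ho : a.1.coeff m / g ^ m ∈ locRing V x := coeff_div_mem hg (a.2 m)
  rw [h3, iT_monomial, Derivation.leibniz, Derivation.leibniz_pow, smul_eq_mul, smul_eq_mul,
    smul_eq_mul, nsmul_eq_mul]
  exact add_mem (mul_mem (hC _ ho) (mul_mem (natCast_mem _ _) (mul_mem (pow_mem htau _) h2)))
    (mul_mem (pow_mem htau _) (h1 _ ho))

theorem C_mem_locF (hL : IsAmple L) {p : Ideal (secRing L)} [p.IsPrime] {x : V.X}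
    (hp : LiesOver p x) (hg : GenAt L g x) {o : V.K} (ho : o ∈ locRing V x) :
    iT V (C o) ∈ locF (alpha L) (alpha_injective L) p := by
  have := monomial_mem_locF hL hp hg ho 0
  rwa [pow_zero, mul_one, monomial_zero_left] at this

theorem tau_mem_locF (hL : IsAmple L) {p : Ideal (secRing L)} [p.IsPrime] {x : V.X}
    (hp : LiesOver p x) (hg : GenAt L g x) :
    tau g ∈ locF (alpha L) (alpha_injective L) p := by
  have := monomial_mem_locF hL hp hg (one_mem (locRing V x)) 1
  rwa [pow_one, one_mul] at this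

theorem Ext.regular (h : Ext g w W) (hL : IsAmple L) {p : Ideal (secRing L)} [p.IsPrime] {x : V.X}
    (hp : LiesOver p x) (hg : GenAt L g x) (hw : ∀ i, RegDer x (w i)) (i : Fin (n + 1)) {f : KT V}
    (hf : f ∈ locF (alpha L) (alpha_injective L) p) :
    W i f ∈ locF (alpha L) (alpha_injective L) p := by
  refine der_mem_locF hL hp hg (W i) (fun o ho => ?_) ?_ hf
  · induction i using Fin.cases with
    | zero =>
      rw [h.zero_C]
      exact zero_mem _
    | succ i =>
      rw [h.succ_C]
      exact C_mem_locF hL hp hg (regDer_iff_locRing.1 (hw i) o ho)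
  · induction i using Fin.cases with
    | zero =>
      rw [h.zero_tau hg.1]
      exact one_mem _
    | succ i =>
      rw [h.succ_tau hg.1]
      exact zero_mem _

/-- The coordinates of the extended frame. -/
noncomputable def coords (g : V.K) {n : ℕ} (t : Fin n → V.K) : Fin (n + 1) → KT V :=
  Fin.cons (tau g) fun j => iT V (C (t j))

theorem Ext.dual (h : Ext g w W) (hg : g ≠ 0) {t : Fin n → V.K}
    (ht : ∀ i j, w i (t j) = if i = j then 1 else 0) (i j : Fin (n + 1)) :
    W i (coords g t j) = if i = j then 1 else 0 := by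
  induction i using Fin.cases with
  | zero =>
    induction j using Fin.cases with
    | zero => rw [coords, Fin.cons_zero, h.zero_tau hg, if_pos rfl]
    | succ j => rw [coords, Fin.cons_succ, h.zero_C, if_neg (Fin.succ_ne_zero j).symm]
  | succ i =>
    induction j using Fin.cases with
    | zero => rw [coords, Fin.cons_zero, h.succ_tau hg, if_neg (Fin.succ_ne_zero i)]
    | succ j =>
      rw [coords, Fin.cons_succ, h.succ_C, ht]
      by_cases hij : i = j
      · rw [if_pos hij, if_pos (congrArg _ hij), C_1, map_one]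
      · rw [if_neg hij, if_neg (fun h => hij (Fin.succ_injective _ h)), C_0, map_zero]

theorem coords_mem (hL : IsAmple L) {p : Ideal (secRing L)} [p.IsPrime] {x : V.X}
    (hp : LiesOver p x) (hg : GenAt L g x) {t : Fin n → V.K} (ht : ∀ j, t j ∈ locRing V x)
    (i : Fin (n + 1)) : coords g t i ∈ locF (alpha L) (alpha_injective L) p := by
  induction i using Fin.cases with
  | zero => exact tau_mem_locF hL hp hg
  | succ i => exact C_mem_locF hL hp hg (ht i)

/-- The local ring of the section ring at a maximal ideal over `x` has dimension `dim V + 1`. -/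
theorem regular_eq (hL : IsAmple L) {p : Ideal (secRing L)} [p.IsMaximal] {x : V.X}
    (hp : LiesOver p x) :
    IsRegularLocalRing (Localization.AtPrime p) ∧
      ringKrullDim (Localization.AtPrime p) = (V.dim + 1 : ℕ) := by
  have := ufd V x
  have hft := secRing_finiteType hL
  obtain ⟨g, hg⟩ := exists_genAt L x
  obtain ⟨hreg, hle⟩ := regular_le hL hp
  obtain ⟨t, w, h1, h2, h3, h4, -⟩ := exists_frame_dim V x
  obtain ⟨W, hW⟩ := exists_ext g w
  refine ⟨hreg, le_antisymm hle ?_⟩
  exact le_dim (alpha L) (alpha_injective L) p (fun c => rfl) W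
    (fun i f hf => hW.regular hL hp hg h2 i hf) (coords g t) (coords_mem hL hp hg h1)
    (hW.dual hg.1 h3)

end Vale.Agent.P271.Sch
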