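import Vale.Agent.P271.Sch.Sec

/-!
# The section ring of an ample divisor is finitely generated
-/

open AlgebraicGeometry Order Polynomial

namespace Vale.Agent.P271.Sch

open Vale.Agent.P299 Vale.Agent.P299.Q

/-- A subalgebra of a field which consists of elements integral over a finitely generated
subalgebra that generates the field is finitely generated. -/
theorem fg_of_valuation {k L : Type} [Field k] [CharZero k] [Field L] [Algebra k L]
    (P M : Subalgebra k L) (hPfg : P.FG) (hPM : P ≤ M)
    (hgen : ∀ S : Subfield L, (∀ c : k, algebraMap k L c ∈ S) → (∀ p ∈ P, p ∈ S) → S = ⊤)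
    (hval : ∀ f ∈ M, ∀ W : ValuationSubring L, (∀ p ∈ P, p ∈ W) → f ∈ W) : M.FG := by
  classical
  have hPft : Algebra.FiniteType k P := (Subalgebra.fg_iff_finiteType P).1 hPfg
  obtain ⟨t, ht⟩ := hPfg
  obtain ⟨d, g, hg, hgfin⟩ := exists_finite_inj_algHom_of_fg k P
  set A := MvPolynomial (Fin d) k with hA
  let ψ : A →ₐ[k] L := P.val.comp g
  have hψinj : Function.Injective ψ := Subtype.val_injective.comp hg
  let algAL : Algebra A L := ψ.toRingHom.toAlgebra
  have hAL : ∀ a : A, algebraMap A L a = (g a : L) := fun a => rfl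
  have : FaithfulSMul A L := (faithfulSMul_iff_algebraMap_injective A L).2 hψinj
  have : IsScalarTower k A L := IsScalarTower.of_algebraMap_eq fun c => by
    rw [hAL]
    have : g (algebraMap k A c) = algebraMap k P c := g.commutes c
    rw [this]
    rfl
  have hPint : ∀ p : P, IsIntegral A (p : L) := by
    intro p
    have h1 : g.toRingHom.IsIntegralElem p := hgfin.to_isIntegral p
    obtain ⟨q, hq, hqp⟩ := h1
    refine ⟨q, hq, ?_⟩
    have h3 : eval₂ g.toRingHom p q = 0 := hqp
    have h4 := Polynomial.hom_eval₂ q g.toRingHom (P.val : P →+* L) p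
    rw [h3, map_zero] at h4
    exact h4.symm
  let F := FractionRing A
  let algFL : Algebra F L := FractionRing.liftAlgebra A L
  have : IsScalarTower A F L := FractionRing.isScalarTower_liftAlgebra A L
  have htP : ∀ x ∈ t, x ∈ P := fun x hx => by
    rw [← ht]
    exact Algebra.subset_adjoin hx
  have hkF : ∀ c : k, algebraMap k L c = algebraMap F L (algebraMap A F (algebraMap k A c)) := by
    intro c
    rw [← IsScalarTower.algebraMap_apply A F L, ← IsScalarTower.algebraMap_apply k A L]
  have hfin : FiniteDimensional F L := by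
    let E : IntermediateField F L := IntermediateField.adjoin F (t : Set L)
    have hE : E = ⊤ := by
      have h1 : E.toSubfield = ⊤ := by
        refine hgen E.toSubfield (fun c => ?_) fun p hp => ?_
        · rw [hkF]
          exact E.algebraMap_mem _
        · rw [← ht] at hp
          induction hp using Algebra.adjoin_induction with
          | mem x hx => exact IntermediateField.subset_adjoin F _ hx
          | algebraMap r =>
            rw [hkF]
            exact E.algebraMap_mem _
          | add x y _ _ hx hy => exact E.add_mem hx hy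
          | mul x y _ _ hx hy => exact E.mul_mem hx hy
      rw [eq_top_iff]
      intro x _
      have : x ∈ E.toSubfield := by rw [h1]; trivial
      exact this
    have h3 : FiniteDimensional F E := by
      refine IntermediateField.finiteDimensional_adjoin ?_
      intro x hx
      exact (hPint ⟨x, htP x hx⟩).tower_top
    rw [hE] at h3
    exact Module.Finite.equiv (IntermediateField.topEquiv (F := F) (E := L)).toLinearEquiv
  have hnoeth : IsNoetherian A (integralClosure A L) :=
    IsIntegralClosure.isNoetherian A F L (integralClosure A L)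
  have hint : ∀ f ∈ M, IsIntegral A f := by
    intro f hf
    by_contra hcon
    have h1 : f ∉ (integralClosure A L).toSubring := hcon
    have : IsIntegrallyClosedIn (integralClosure A L).toSubring L :=
      inferInstanceAs (IsIntegrallyClosedIn (integralClosure A L) L)
    obtain ⟨W, hW, hfW⟩ := Subring.exists_le_valuationSubring_of_isIntegrallyClosedIn h1
    exact hfW (hval f hf W fun p hp => hW (hPint ⟨p, hp⟩))
  let M' : Submodule A L :=
    { carrier := M
      add_mem' := fun ha hb => M.add_mem ha hb
      zero_mem' := M.zero_mem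
      smul_mem' := fun a x hx => by
        rw [Algebra.smul_def, hAL]
        exact M.mul_mem (hPM (g a).2) hx }
  have hle : M' ≤ Subalgebra.toSubmodule (integralClosure A L) := fun x hx => hint x hx
  have hfg : M'.FG := by
    have h1 : IsNoetherian A (Subalgebra.toSubmodule (integralClosure A L)) := hnoeth
    exact (isNoetherian_of_le hle).noetherian ⊤ |> fun h => (Submodule.fg_top M').1 h
  obtain ⟨S', hS'⟩ := hfg
  refine ⟨t ∪ S', le_antisymm (Algebra.adjoin_le ?_) ?_⟩
  · intro x hx
    rw [Finset.coe_union] at hx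
    rcases hx with hx | hx
    · exact hPM (htP x hx)
    · have : x ∈ M' := by
        rw [← hS']
        exact Submodule.subset_span hx
      exact this
  · intro x hx
    have h1 : x ∈ Submodule.span A (S' : Set L) := by
      rw [hS']
      exact hx
    obtain ⟨a, -, ha⟩ := Submodule.mem_span_finset.1 h1
    rw [← ha]
    refine Subalgebra.sum_mem _ fun y hy => ?_
    rw [Algebra.smul_def, hAL]
    refine Subalgebra.mul_mem _ ?_ (Algebra.subset_adjoin ?_)
    · have h2 : ((g (a y) : P) : L) ∈ Algebra.adjoin k (t : Set L) := by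
        rw [ht]
        exact (g (a y)).2
      refine Algebra.adjoin_mono ?_ h2
      rw [Finset.coe_union]
      exact Set.subset_union_left
    · rw [Finset.coe_union]
      exact Or.inr hy

theorem mem_of_pow_mem {L : Type} [Field L] (W : ValuationSubring L) {y : L} {c : ℕ} (hc : 0 < c)
    (h : y ^ c ∈ W) : y ∈ W := by
  by_cases hy0 : y = 0
  · rw [hy0]
    exact W.zero_mem
  rcases W.mem_or_inv_mem y with h1 | h1
  · exact h1
  · obtain ⟨b, rfl⟩ := Nat.exists_eq_succ_of_ne_zero hc.ne'
    have h2 : y = y ^ (b + 1) * (y⁻¹) ^ b := by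
      rw [pow_succ, inv_pow]
      field_simp
    rw [h2]
    exact W.mul_mem _ _ h (W.toSubring.pow_mem h1 b)

variable {V : Q.Var} {L : Q.Div V.X}

/-- The field `K(V)(T)`. -/
abbrev KT (V : Q.Var) : Type := FractionRing (Polynomial V.K)

/-- The embedding of the polynomial ring in the rational function field. -/
noncomputable abbrev iT (V : Q.Var) : Polynomial V.K →ₐ[ℂ] KT V :=
  IsScalarTower.toAlgHom ℂ (Polynomial V.K) (KT V)

theorem iT_injective (V : Q.Var) : Function.Injective (iT V) :=
  IsFractionRing.injective (Polynomial V.K) (KT V)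

/-- If `a ∈ H⁰(mL)` and `g` generates `cL` at `x` then `a ^ c / g ^ m` is regular at `x`. -/
theorem pow_div_mem {m c : ℕ} {a g : V.K} (ha : a ∈ H0 (coef (m • L))) {x : V.X}
    (hg : GenAt (c • L) g x) : a ^ c / g ^ m ∈ locRing V x := by
  have := ufd V x
  by_cases ha0 : a ^ c = 0
  · rw [ha0, zero_div]
    exact zero_mem _
  by_cases hc : c = 0
  · subst hc
    have h0 : ∀ z : V.X, coheight z = 1 → z ⤳ x → Scheme.ord (1 / g ^ m) z = 0 := by
      intro z hz hzx
      have h1 := hg.2 z hz hzx
      rw [zero_smul, coef_zero, add_zero] at h1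
      rw [ord_div one_ne_zero (pow_ne_zero _ hg.1), ord_pow hg.1, ord_one, h1]
      simp
    obtain ⟨b, hb⟩ := G.exists_of_forall_ord_nonneg V.dvr x (1 / g ^ m)
      (fun z hz hzx => (h0 z hz hzx).ge)
    rw [pow_zero]
    exact ⟨b, hb⟩
  have ha1 : a ≠ 0 := fun h => ha0 (by rw [h, zero_pow hc])
  obtain ⟨b, hb⟩ := G.exists_of_forall_ord_nonneg V.dvr x (a ^ c / g ^ m) (fun z hz hzx => by
    rw [ord_div ha0 (pow_ne_zero _ hg.1) z, ord_pow hg.1, ord_pow ha1]
    have h3 := hg.2 z hz hzx
    have h4 := (mem_H0.1 ha) z hz ha1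
    rw [coef_nsmul] at h3 h4
    have h5 : Scheme.ord g z = - (c * coef L z) := by linarith
    rw [h5]
    have h6 : (0 : ℤ) ≤ c * (Scheme.ord a z + m * coef L z) := by positivity
    linarith)
  exact ⟨b, hb⟩

/-- The section ring of an ample divisor is finitely generated. -/
theorem secRing_fg (hL : IsAmple L) : (secRing L).FG := by
  classical
  obtain ⟨c, J, hJ, s, j₀, hc, hs, hgen, hj₀, hfield⟩ := hL.exists_sections factorialStalks
  obtain ⟨m₀, hm₀⟩ := hL.forall_add (ufd V) 0
  have hex : ∀ m ≥ m₀, ∃ u ∈ H0 (coef (m • L)), u ≠ 0 := by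
    intro m hm
    have := (hm₀ m hm).2
    rw [add_zero] at this
    exact H0_ne_bot_iff.1 this.exists_section
  obtain ⟨u₁, hu₁, hu₁0⟩ := hex m₀ le_rfl
  obtain ⟨u₂, hu₂, hu₂0⟩ := hex (m₀ + 1) (Nat.le_succ _)
  let gen : J ⊕ Bool → Polynomial V.K := Sum.elim (fun j => monomial c (s j))
    (fun b => if b then monomial m₀ u₁ else monomial (m₀ + 1) u₂)
  have hgenmem : ∀ j, gen j ∈ secRing L := by
    rintro (j | b)
    · exact monomial_mem L (hs j)
    · cases b
      · exact monomial_mem L hu₂
      · exact monomial_mem L hu₁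
  set ι := iT V with hι
  have hιinj := iT_injective V
  let P : Subalgebra ℂ (KT V) := Algebra.adjoin ℂ (Set.range fun j => ι (gen j))
  have hPfg : P.FG := Subalgebra.fg_def.2 ⟨_, Set.finite_range _, rfl⟩
  have hgenP : ∀ j, ι (gen j) ∈ P := fun j => Algebra.subset_adjoin ⟨j, rfl⟩
  refine Subalgebra.fg_of_fg_map (secRing L) ι hιinj ?_
  refine fg_of_valuation P _ hPfg ?_ ?_ ?_
  · refine Algebra.adjoin_le ?_
    rintro _ ⟨j, rfl⟩
    exact ⟨gen j, hgenmem j, rfl⟩
  · intro S hS1 hS2
    have hS3 : ∀ j, ι (gen j) ∈ S := fun j => hS2 _ (hgenP j)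
    have h0 : S.comap ((algebraMap (Polynomial V.K) (KT V)).comp C) = ⊤ := by
      refine hfield _ (fun c => hS1 c) fun j => ?_
      change ι (C (s j / s j₀)) ∈ S
      have h1 : ι (C (s j / s j₀)) = ι (monomial c (s j)) / ι (monomial c (s j₀)) := by
        rw [eq_div_iff ((map_ne_zero_iff ι hιinj).2 ((monomial_eq_zero_iff _ _).not.2 hj₀)),
          ← map_mul, C_mul_monomial, div_mul_cancel₀ _ hj₀]
      rw [h1]
      exact S.div_mem (hS3 (Sum.inl j)) (hS3 (Sum.inl j₀))
    have h1 : ∀ a : V.K, ι (C a) ∈ S := by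
      intro a
      have : a ∈ S.comap ((algebraMap (Polynomial V.K) (KT V)).comp C) := by rw [h0]; trivial
      exact this
    have hX : ∀ (m : ℕ) (u : V.K), u ≠ 0 → ι (monomial m u) ∈ S → ι (Polynomial.X ^ m) ∈ S := by
      intro m u hu h
      have h3 : ι (Polynomial.X ^ m) = ι (C u⁻¹) * ι (monomial m u) := by
        rw [← map_mul, C_mul_monomial, inv_mul_cancel₀ hu, ← Polynomial.X_pow_eq_monomial]
      rw [h3]
      exact S.mul_mem (h1 _) h
    have h2 : ι Polynomial.X ∈ S := by
      have h4 := hX m₀ u₁ hu₁0 (hS3 (Sum.inr true))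
      have h5 := hX (m₀ + 1) u₂ hu₂0 (hS3 (Sum.inr false))
      have h6 : ι Polynomial.X = ι (Polynomial.X ^ (m₀ + 1)) / ι (Polynomial.X ^ m₀) := by
        rw [eq_div_iff ((map_ne_zero_iff ι hιinj).2 (pow_ne_zero _ Polynomial.X_ne_zero)),
          ← map_mul, pow_succ, mul_comm]
      rw [h6]
      exact S.div_mem h5 h4
    have h3 : ∀ p : Polynomial V.K, ι p ∈ S := by
      intro p
      induction p using Polynomial.induction_on' with
      | add p q hp hq =>
        rw [map_add]
        exact S.add_mem hp hq
      | monomial n a =>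
        rw [← C_mul_X_pow_eq_monomial, map_mul, map_pow]
        exact S.mul_mem (h1 a) (S.pow_mem h2 n)
    rw [eq_top_iff]
    intro a _
    obtain ⟨p, q, -, rfl⟩ := IsFractionRing.div_surjective (A := Polynomial V.K) a
    exact S.div_mem (h3 p) (h3 q)
  · rintro _ ⟨f, hf, rfl⟩ W hW
    have hW3 : ∀ j, ι (gen j) ∈ W := fun j => hW _ (hgenP j)
    obtain ⟨x, hx⟩ := exists_center V (W.comap ((algebraMap (Polynomial V.K) (KT V)).comp C))
      fun c => hW _ (P.algebraMap_mem c)
    have hx' : ∀ a ∈ locRing V x, ι (C a) ∈ W := by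
      rintro _ ⟨a, rfl⟩
      exact hx a
    obtain ⟨j, hj⟩ := hgen x
    have key : ∀ m : ℕ, ∀ a ∈ H0 (coef (m • L)), ι (monomial m a) ∈ W := by
      intro m a ha
      refine mem_of_pow_mem W hc ?_
      have h1 := hx' _ (pow_div_mem ha hj)
      have h0 : monomial m a ^ c = C (a ^ c / s j ^ m) * monomial c (s j) ^ m := by
        rw [monomial_pow, monomial_pow, C_mul_monomial,
          div_mul_cancel₀ _ (pow_ne_zero _ hj.1), mul_comm m c]
      have h2 : ι (monomial m a) ^ c = ι (C (a ^ c / s j ^ m)) * ι (monomial c (s j)) ^ m := by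
        have := congrArg ι h0
        rwa [map_pow, map_mul, map_pow] at this
      rw [h2]
      exact W.mul_mem _ _ h1 (W.toSubring.pow_mem (hW3 (Sum.inl j)) m)
    change ι f ∈ W
    rw [f.as_sum_support, map_sum]
    exact W.toSubring.sum_mem fun m _ => key m _ (hf m)

theorem secRing_finiteType (hL : IsAmple L) : Algebra.FiniteType ℂ (secRing L) :=
  (Subalgebra.fg_iff_finiteType _).1 (secRing_fg hL)

end Vale.Agent.P271.Sch
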