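import Vale.Agent.P271.Sch.Frac

/-!
# The top form of the base attached to a homogeneous form of the cone
-/

open AlgebraicGeometry Order Polynomial IsLocalRing

namespace Vale.Agent.P271.Sch

open Vale.Agent.P299 Vale.Agent.P299.Q Vale.Agent.P299.G

variable {V : Q.Var} {L : Q.Div V.X}

/-- The matrix with the rows `(d_k ζ_k)_k` and `(w_l ζ_k)_k`. -/
noncomputable def rows {n : ℕ} (d : Fin (n + 1) → ℕ) (ζ : Fin (n + 1) → V.K)
    (w : Fin n → V.Der) : Matrix (Fin (n + 1)) (Fin (n + 1)) V.K :=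
  Matrix.vecCons (fun k => (d k : V.K) * ζ k) fun l k => w l (ζ k)

/-- The form `c · ι_E (dζ_0 ∧ … ∧ dζ_n)`. -/
noncomputable def form {n : ℕ} (c : V.K) (d : Fin (n + 1) → ℕ) (ζ : Fin (n + 1) → V.K) :
    V.Der [⋀^Fin n]→ₗ[V.K] V.K :=
  c • ((Matrix.detRowAlternating.curryLeft fun k => (d k : V.K) * ζ k).compLinearMap
    { toFun := fun v k => v (ζ k)
      map_add' := fun _ _ => rfl
      map_smul' := fun _ _ => rfl })

theorem form_apply {n : ℕ} (c : V.K) (d : Fin (n + 1) → ℕ) (ζ : Fin (n + 1) → V.K)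
    (w : Fin n → V.Der) : form c d ζ w = c * (rows d ζ w).det := rfl

variable {g : V.K} {n : ℕ} {w : Fin n → V.Der} {W : Fin (n + 1) → Derivation ℂ (KT V) (KT V)}

theorem iT_monomial' (o : V.K) (m : ℕ) :
    iT V (monomial m o) = iT V (C o) * iT V Polynomial.X ^ m := by
  rw [← map_pow, ← map_mul, C_mul_X_pow_eq_monomial]

theorem iT_X_ne_zero : iT V Polynomial.X ≠ 0 :=
  (map_ne_zero_iff _ (iT_injective V)).2 Polynomial.X_ne_zero

theorem tau_ne_zero (hg : g ≠ 0) : tau g ≠ 0 := by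
  rw [tau_eq]
  exact mul_ne_zero ((map_ne_zero_iff _ (iT_injective V)).2 (C_ne_zero.2 hg)) iT_X_ne_zero

theorem Ext.zero_monomial (h : Ext g w W) (hg : g ≠ 0) (m : ℕ) (o : V.K) :
    W 0 (iT V (monomial m o)) =
      (tau g)⁻¹ * (iT V (C ((m : V.K) * o)) * iT V Polynomial.X ^ m) := by
  have hC : iT V (C g) ≠ 0 := (map_ne_zero_iff _ (iT_injective V)).2 (C_ne_zero.2 hg)
  rw [iT_monomial', Derivation.leibniz, h.zero_C, Derivation.leibniz_pow, h.zero_X, smul_zero,
    add_zero, smul_eq_mul, smul_eq_mul, nsmul_eq_mul, tau_eq, C_mul, map_mul, map_natCast C,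
    map_natCast (iT V)]
  rcases m with _ | m
  · simp
  · have h1 : iT V (C g⁻¹) = (iT V (C g))⁻¹ := by
      refine eq_inv_of_mul_eq_one_left ?_
      rw [← map_mul, ← C_mul, inv_mul_cancel₀ hg, C_1, map_one]
    have h2 := iT_X_ne_zero (V := V)
    rw [h1, Nat.add_sub_cancel, pow_succ]
    field_simp

theorem Ext.succ_monomial (h : Ext g w W) (l : Fin n) (m : ℕ) (o : V.K) :
    W (Fin.succ l) (iT V (monomial m o)) =
      (iT V (C (w l o)) + -iT V (C (w l g / g)) * iT V (C ((m : V.K) * o))) *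
        iT V Polynomial.X ^ m := by
  rw [iT_monomial', Derivation.leibniz, h.succ_C, Derivation.leibniz_pow, h.succ_X, smul_eq_mul,
    smul_eq_mul, smul_eq_mul, nsmul_eq_mul, C_mul, map_mul, map_natCast C, map_natCast (iT V)]
  rcases m with _ | m
  · simp
  · rw [Nat.add_sub_cancel, pow_succ]
    ring

/-- The value of `dz_0 ∧ … ∧ dz_n` on the frame. -/
theorem Ext.det_eq (h : Ext g w W) (hg : g ≠ 0) (d : Fin (n + 1) → ℕ) (ζ : Fin (n + 1) → V.K)
    (z : Fin (n + 1) → KT V) (hz : ∀ k, z k = iT V (monomial (d k) (ζ k))) :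
    (Matrix.of fun i k => W i (z k)).det =
      iT V (C (rows d ζ w).det) * iT V Polynomial.X ^ (∑ k, d k) * (tau g)⁻¹ := by
  have h1 : (Matrix.of fun i k => W i (z k)) =
      Matrix.of fun i k => iT V Polynomial.X ^ d k *
        (Matrix.of fun i k => (Fin.cons (tau g)⁻¹ (fun _ => 1) : Fin (n + 1) → KT V) i *
          (Matrix.of fun i k => iT V (C (rows d ζ w i k)) +
            (Fin.cons 0 (fun l => -iT V (C (w l g / g))) : Fin (n + 1) → KT V) i *
              iT V (C (rows d ζ w 0 k))) i k) i k := by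
    ext i k
    rw [Matrix.of_apply, Matrix.of_apply, Matrix.of_apply, Matrix.of_apply, hz]
    induction i using Fin.cases with
    | zero =>
      rw [h.zero_monomial hg, Fin.cons_zero, Fin.cons_zero, zero_mul, add_zero]
      change _ = _ * (_ * iT V (C ((d k : V.K) * ζ k)))
      ring
    | succ l =>
      rw [h.succ_monomial, Fin.cons_succ, Fin.cons_succ, one_mul]
      change _ = _ * (iT V (C (w l (ζ k))) + _ * iT V (C ((d k : V.K) * ζ k)))
      ring
  have h3 : ∏ i, (Fin.cons (tau g)⁻¹ (fun _ => 1) : Fin (n + 1) → KT V) i = (tau g)⁻¹ := by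
    rw [Fin.prod_univ_succ, Fin.cons_zero]
    simp only [Fin.cons_succ, Finset.prod_const_one, mul_one]
  rw [h1, Matrix.det_mul_row, Matrix.det_mul_column, h3]
  rw [Matrix.det_eq_of_forall_row_eq_smul_add_const (A := Matrix.of fun i k =>
    iT V (C (rows d ζ w i k)) +
            (Fin.cons 0 (fun l => -iT V (C (w l g / g))) : Fin (n + 1) → KT V) i *
              iT V (C (rows d ζ w 0 k))) (B := Matrix.of fun i k => iT V (C (rows d ζ w i k)))
    (Fin.cons 0 (fun l => -iT V (C (w l g / g)))) 0 (Fin.cons_zero _ _) (fun i j => rfl)]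
  have h2 : (Matrix.of fun i k => iT V (C (rows d ζ w i k))).det =
      iT V (C (rows d ζ w).det) :=
    (RingHom.map_det ((iT V : Polynomial V.K →+* KT V).comp C) (rows d ζ w)).symm
  rw [h2, Finset.prod_pow_eq_pow_sum]
  ring

end Vale.Agent.P271.Sch
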