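import Vale.Agent.P271.Sch.Hub
import Vale.Agent.P271.Sch.Alg

/-!
# The hub output in another model of the field of fractions
-/

open IsLocalRing

namespace Vale.Agent.P271.Sch

namespace GCone

variable {n : ℕ} {C : GCone n} {F : Type} [Field F] [Algebra ℂ F] (α : C.R →+* F)
  (hα : Function.Injective α) (hc : ∀ c : ℂ, α (algebraMap ℂ C.R c) = algebraMap ℂ F c)
  (hs : ∀ z : F, ∃ a s : C.R, s ≠ 0 ∧ z * α s = α a)

instance ker_isPrime (φ : C.Pt) : (RingHom.ker φ).IsPrime := RingHom.ker_isPrime φ

omit [Algebra ℂ F] in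
include hα in
theorem isUnit_alpha' (y : nonZeroDivisors C.R) : IsUnit (α y) :=
  IsUnit.mk0 _ ((map_ne_zero_iff α hα).2 (nonZeroDivisors.ne_zero y.2))

/-- The comparison of the fields of fractions. -/
noncomputable def frHom : C.K →+* F :=
  IsLocalization.lift (M := nonZeroDivisors C.R) (isUnit_alpha' α hα)

omit [Algebra ℂ F] in
theorem frHom_algebraMap (a : C.R) : frHom α hα (algebraMap C.R C.K a) = α a :=
  IsLocalization.lift_eq _ _

omit [Algebra ℂ F] in
theorem frHom_injective : Function.Injective (frHom α hα) := (frHom α hα).injective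

include hs in
theorem frHom_surjective : Function.Surjective (frHom α hα) := by
  intro z
  obtain ⟨a, s, hs0, h⟩ := hs z
  refine ⟨algebraMap C.R C.K a / algebraMap C.R C.K s, ?_⟩
  rw [map_div₀, frHom_algebraMap, frHom_algebraMap, div_eq_iff ((map_ne_zero_iff α hα).2 hs0), h]

/-- The comparison of the fields of fractions. -/
noncomputable def fr : C.K ≃+* F :=
  RingEquiv.ofBijective (frHom α hα) ⟨frHom_injective α hα, frHom_surjective α hα hs⟩

theorem fr_algebraMap (a : C.R) : fr α hα hs (algebraMap C.R C.K a) = α a :=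
  frHom_algebraMap α hα a

include hc in
theorem fr_smul (c : ℂ) (z : C.K) : fr α hα hs (c • z) = c • fr α hα hs z := by
  have h1 : algebraMap ℂ C.K c = algebraMap C.R C.K (algebraMap ℂ C.R c) :=
    IsScalarTower.algebraMap_apply ℂ C.R C.K c
  rw [Algebra.smul_def, map_mul, h1, fr_algebraMap, Algebra.smul_def, hc]

theorem regAt_iff (φ : C.Pt) (f : C.K) :
    RegAt φ f ↔ fr α hα hs f ∈ locF α hα (RingHom.ker φ) := by
  rw [mem_range_jLoc]
  constructor
  · rintro ⟨a, b, hb, h⟩
    refine ⟨a, b, hb, ?_⟩
    have := congrArg (fr α hα hs) h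
    rwa [map_mul, fr_algebraMap, fr_algebraMap] at this
  · rintro ⟨a, s, hs', h⟩
    refine ⟨a, s, hs', (fr α hα hs).injective ?_⟩
    rw [map_mul, fr_algebraMap, fr_algebraMap]
    exact h

/-- Transport of a derivation to the field of fractions. -/
noncomputable def downDer (D : Derivation ℂ F F) : Derivation ℂ C.K C.K :=
  Derivation.mk' (R := ℂ)
    { toFun := fun z => (fr α hα hs).symm (D (fr α hα hs z))
      map_add' := fun x y => by rw [map_add, map_add, map_add]
      map_smul' := fun c x => by
        apply (fr α hα hs).injective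
        rw [RingHom.id_apply, fr_smul α hα hc hs, fr_smul α hα hc hs, RingEquiv.apply_symm_apply,
          RingEquiv.apply_symm_apply, Derivation.map_smul] }
    fun x y => by
      apply (fr α hα hs).injective
      change fr α hα hs ((fr α hα hs).symm (D (fr α hα hs (x * y)))) =
        fr α hα hs (x * (fr α hα hs).symm (D (fr α hα hs y)) +
          y * (fr α hα hs).symm (D (fr α hα hs x)))
      rw [RingEquiv.apply_symm_apply, map_mul, Derivation.leibniz, map_add, map_mul, map_mul,
        RingEquiv.apply_symm_apply, RingEquiv.apply_symm_apply, smul_eq_mul, smul_eq_mul]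

theorem fr_downDer (D : Derivation ℂ F F) (z : C.K) :
    fr α hα hs (downDer α hα hc hs D z) = D (fr α hα hs z) :=
  (fr α hα hs).apply_symm_apply _

/-- Transport of a derivation of the field of fractions. -/
noncomputable def upDer (D : Derivation ℂ C.K C.K) : Derivation ℂ F F :=
  Derivation.mk' (R := ℂ)
    { toFun := fun z => fr α hα hs (D ((fr α hα hs).symm z))
      map_add' := fun x y => by rw [map_add, map_add, map_add]
      map_smul' := fun c x => by
        rw [RingHom.id_apply, ← fr_smul α hα hc hs]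
        congr 1
        rw [← Derivation.map_smul]
        congr 1
        apply (fr α hα hs).injective
        rw [fr_smul α hα hc hs, RingEquiv.apply_symm_apply, RingEquiv.apply_symm_apply] }
    fun x y => by
      change fr α hα hs (D ((fr α hα hs).symm (x * y))) =
        x * fr α hα hs (D ((fr α hα hs).symm y)) + y * fr α hα hs (D ((fr α hα hs).symm x))
      rw [map_mul, Derivation.leibniz, map_add, smul_eq_mul, smul_eq_mul, map_mul, map_mul,
        RingEquiv.apply_symm_apply, RingEquiv.apply_symm_apply]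

theorem upDer_fr (D : Derivation ℂ C.K C.K) (z : C.K) :
    upDer α hα hc hs D (fr α hα hs z) = fr α hα hs (D z) := by
  change fr α hα hs (D ((fr α hα hs).symm (fr α hα hs z))) = _
  rw [RingEquiv.symm_apply_apply]

theorem fr_jac (z : Fin (n + 1) → C.R) (D : Fin (n + 1) → Derivation ℂ C.K C.K)
    (E : Fin (n + 1) → Derivation ℂ F F) (h : ∀ i y, fr α hα hs (D i y) = E i (fr α hα hs y)) :
    fr α hα hs (jac z D) = (Matrix.of fun i j => E i (α (z j))).det := by
  unfold jac
  rw [RingEquiv.map_det]
  congr 1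
  ext i j
  change fr α hα hs (D i (algebraMap C.R C.K (z j))) = E i (α (z j))
  rw [h, fr_algebraMap]

include hc hs in
/-- The output of the hub theorem, in the field `F`. -/
theorem gen_field {m : ℕ} {φ₀ : C.Pt} (hgen : Gen m φ₀) :
    ∃ (z : Fin (n + 1) → C.R) (d : Fin (n + 1) → ℕ) (a b : C.R) (i j : ℕ),
      (∀ k, z k ∈ C.A (d k)) ∧ a ∈ C.A i ∧ b ∈ C.A j ∧ b ≠ 0 ∧
      i + ∑ k, d k = m + j ∧
      (∀ φ : C.Pt, NV φ → ∀ E : Fin (n + 1) → Derivation ℂ F F,
        (∀ k, ∀ f ∈ locF α hα (RingHom.ker φ), E k f ∈ locF α hα (RingHom.ker φ)) →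
        α a / α b * (Matrix.of fun i j => E i (α (z j))).det ∈ locF α hα (RingHom.ker φ)) ∧
      ∃ E : Fin (n + 1) → Derivation ℂ F F,
        (∀ k, ∀ f ∈ locF α hα (RingHom.ker φ₀), E k f ∈ locF α hα (RingHom.ker φ₀)) ∧
        α a / α b * (Matrix.of fun i j => E i (α (z j))).det ≠ 0 ∧
        (α a / α b * (Matrix.of fun i j => E i (α (z j))).det)⁻¹ ∈
          locF α hα (RingHom.ker φ₀) := by
  obtain ⟨z, d, a, b, i, j, hz, ha, hb, hb0, hdeg, h1, D, hD, hne, hinv⟩ := hgen
  refine ⟨z, d, a, b, i, j, hz, ha, hb, hb0, hdeg, ?_, ?_⟩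
  · intro φ hNV E hE
    have h2 := h1 φ hNV (fun k => downDer α hα hc hs (E k)) (fun k f hf => by
      rw [regAt_iff α hα hs] at hf ⊢
      rw [fr_downDer]
      exact hE k _ hf)
    rw [regAt_iff α hα hs, map_mul, map_div₀, fr_algebraMap, fr_algebraMap,
      fr_jac α hα hs z _ E (fun k y => fr_downDer α hα hc hs (E k) y)] at h2
    exact h2
  · refine ⟨fun k => upDer α hα hc hs (D k), fun k f hf => ?_, ?_⟩
    · obtain ⟨y, rfl⟩ := (fr α hα hs).surjective f
      rw [upDer_fr]
      rw [← regAt_iff α hα hs] at hf ⊢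
      exact hD k y hf
    · have h3 := fr_jac α hα hs z D (fun k => upDer α hα hc hs (D k))
        (fun k y => (upDer_fr α hα hc hs (D k) y).symm)
      have h4 : fr α hα hs (algebraMap C.R C.K a / algebraMap C.R C.K b * jac z D) =
          α a / α b * (Matrix.of fun i j => upDer α hα hc hs (D i) (α (z j))).det := by
        rw [map_mul, map_div₀, fr_algebraMap, fr_algebraMap, h3]
      refine ⟨?_, ?_⟩
      · rw [← h4]
        exact (map_ne_zero_iff _ (fr α hα hs).injective).2 hne
      · rw [← h4, ← map_inv₀]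
        exact (regAt_iff α hα hs φ₀ _).1 hinv

end GCone

end Vale.Agent.P271.Sch
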