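import Vale.Agent.P271.Sch.Point
import Vale.Agent.P271.Sch.Trans

/-!
# The field of fractions of the section ring
-/

open AlgebraicGeometry Order Polynomial IsLocalRing

namespace Vale.Agent.P271.Sch

open Vale.Agent.P299 Vale.Agent.P299.Q Vale.Agent.P299.G

variable {V : Q.Var} {L : Q.Div V.X}

theorem not_specializes_genericPoint {z : V.X} (hz : coheight z = 1) :
    ¬ z ⤳ genericPoint V.X := by
  intro h
  have h1 : ∀ y : V.X, y ≤ genericPoint V.X := fun y => genericPoint_specializes y
  have h2 : z = genericPoint V.X := (h.antisymm (genericPoint_specializes z)).eq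
  have h3 : coheight (genericPoint V.X) = 0 := coheight_eq_zero.2 fun b _ => h1 b
  rw [h2, h3] at hz
  exact zero_ne_one hz

/-- Every element of `K(V)(T)` is a quotient of two elements of the section ring. -/
theorem exists_quotient (hL : IsAmple L) (z : KT V) :
    ∃ a s : secRing L, s ≠ 0 ∧ z * alpha L s = alpha L a := by
  have hz : z ∈ locF (alpha L) (alpha_injective L) (⊥ : Ideal (secRing L)) := by
    have hmono : ∀ (i : ℕ) (o : V.K),
        iT V (monomial i o) ∈ locF (alpha L) (alpha_injective L) (⊥ : Ideal (secRing L)) := by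
      intro i o
      obtain ⟨m, -, s, hs, hsx, hprod⟩ := exists_denominator hL (i • L) (h := o)
        (x := genericPoint V.X) (fun z hz hzx _ => absurd hzx (not_specializes_genericPoint hz))
      rw [← add_smul] at hprod
      rw [mem_range_jLoc]
      refine ⟨mono L hprod, mono L hs, ?_, ?_⟩
      · rw [Ideal.mem_bot]
        intro h
        have h1 := congrArg (fun f : secRing L => f.1.coeff m) h
        change (monomial m s).coeff m = (0 : Polynomial V.K).coeff m at h1
        rw [coeff_monomial, if_pos rfl, coeff_zero] at h1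
        exact hsx.1 h1
      · rw [alpha_mono, alpha_mono, ← map_mul, monomial_mul_monomial]
    have hpoly : ∀ f : Polynomial V.K,
        iT V f ∈ locF (alpha L) (alpha_injective L) (⊥ : Ideal (secRing L)) := by
      intro f
      rw [f.as_sum_support, map_sum]
      exact sum_mem fun m _ => hmono m _
    obtain ⟨p, q, hq, rfl⟩ := IsFractionRing.div_surjective (A := Polynomial V.K) z
    rw [div_eq_mul_inv]
    refine mul_mem (hpoly p) ?_
    obtain ⟨a, s, hs, h⟩ := (mem_range_jLoc _ _ _).1 (hpoly q)
    have hq0 : iT V q ≠ 0 :=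
      (map_ne_zero_iff _ (iT_injective V)).2 (nonZeroDivisors.ne_zero hq)
    have hs0 : alpha L s ≠ 0 := (map_ne_zero_iff _ (alpha_injective L)).2 (by simpa using hs)
    have ha0 : a ≠ 0 := by
      rintro rfl
      rw [map_zero] at h
      exact mul_ne_zero hq0 hs0 h
    rw [mem_range_jLoc]
    refine ⟨s, a, by simpa using ha0, ?_⟩
    rw [← h]
    exact inv_mul_cancel_left₀ hq0 _
  obtain ⟨a, s, hs, h⟩ := (mem_range_jLoc _ _ _).1 hz
  exact ⟨a, s, by simpa using hs, h⟩

/-- Closed specialisations exist. -/
theorem exists_closed (y : V.X) : ∃ x : V.X, y ⤳ x ∧ IsClosed {x} := by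
  have : CompactSpace V.X := inferInstance
  obtain ⟨x, hx, hxc⟩ := (isClosed_closure (s := ({y} : Set V.X))).exists_closed_singleton
    ⟨y, subset_closure rfl⟩
  exact ⟨x, specializes_iff_mem_closure.2 hx, hxc⟩

/-- The points of the cone over closed points are different from the vertex. -/
theorem nv_pt (hL : IsAmple L) {x : V.X} {g : V.K} (hx : IsClosed {x}) (hg : GenAt L g x) :
    GCone.NV (C := cone hL) (pt hx hg) := by
  obtain ⟨m, hm, s, hs, U, -, hxU, -, hU⟩ := hL.exists_small (ufd V) x ⊤ trivial
  exact ⟨m, hm, mono L hs, mono_mem hs, liesOver_pt hx hg m s hs ((hU x).1 hxU)⟩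

/-- Expansion of derivations in a frame. -/
theorem der_expand {g : V.K} (hg : g ≠ 0) {n : ℕ} {t : Fin n → V.K} {w : Fin n → V.Der}
    {W : Fin (n + 1) → Derivation ℂ (KT V) (KT V)} (h : Ext g w W)
    (ht : ∀ i j, w i (t j) = if i = j then 1 else 0)
    (hv : ∀ v : V.Der, v = ∑ i, v (t i) • w i) (E : Derivation ℂ (KT V) (KT V)) (f : KT V) :
    E f = ∑ l, E (coords g t l) * W l f := by
  have hsum : ∀ (s : Finset (Fin (n + 1))) (f : KT V),
      (∑ l ∈ s, E (coords g t l) • W l) f = ∑ l ∈ s, E (coords g t l) * W l f := by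
    classical
    intro s f
    induction s using Finset.induction_on with
    | empty => simp
    | insert a s ha ih =>
      rw [Finset.sum_insert ha, Finset.sum_insert ha, Derivation.add_apply, ih,
        Derivation.smul_apply, smul_eq_mul]
  set E' : Derivation ℂ (KT V) (KT V) := E - ∑ l, E (coords g t l) • W l with hE'
  have hcoords : ∀ j, E' (coords g t j) = 0 := by
    intro j
    rw [hE', Derivation.sub_apply, hsum]
    simp only [h.dual hg ht]
    simp
  have htau : E' (tau g) = 0 := hcoords 0
  have hC : ∀ a : V.K, E' (iT V (C a)) = 0 := by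
    refine der_eq_zero_of_coords (k := ℂ) (t := t) (fun v hv0 => ?_)
      ((algebraMap (Polynomial V.K) (KT V)).comp C) (fun a => E' (iT V (C a)))
      (fun a b => ?_) (fun a b => ?_) (fun r => ?_) (fun i => hcoords i.succ)
    · rw [hv v]
      exact Finset.sum_eq_zero fun i _ => by rw [hv0, zero_smul]
    · rw [C_add, map_add, map_add]
    · rw [C_mul, map_mul, Derivation.leibniz]
      rfl
    · have : iT V (C (algebraMap ℂ V.K r)) = algebraMap ℂ (KT V) r := rfl
      rw [this, Derivation.map_algebraMap]
  have hX : E' (iT V Polynomial.X) = 0 := by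
    rw [tau_eq, Derivation.leibniz, hC, smul_zero, add_zero, smul_eq_mul] at htau
    exact (mul_eq_zero.1 htau).resolve_left
      ((map_ne_zero_iff _ (iT_injective V)).2 (C_ne_zero.2 hg))
  have h0 : E' = 0 := der_eq_zero (K := V.K) hC hX
  have h1 : E' f = 0 := by rw [h0, Derivation.zero_apply]
  rw [hE', Derivation.sub_apply, hsum, sub_eq_zero] at h1
  exact h1

end Vale.Agent.P271.Sch
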