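import Vale.Agent.P271.Sch.Dim
import Mathlib.RingTheory.Smooth.StandardSmoothCotangent
import Mathlib.RingTheory.Etale.Kaehler
import Vale.Agent.P299.S.ConvHom

/-!
# The dimension of a smooth variety
-/

open AlgebraicGeometry Order

namespace Vale.Agent.P271.Sch

section Alg

variable {n : ℕ} (A K : Type) [CommRing A] [Algebra ℂ A] [Field K] [Algebra A K]
  [IsFractionRing A K] [Algebra ℂ K] [IsScalarTower ℂ A K]

include A in
/-- The rational vector fields on the spectrum of a standard smooth algebra of relative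
dimension `n` are a vector space of dimension `n`. -/
theorem finrank_derivation (h : Algebra.IsStandardSmoothOfRelativeDimension n ℂ A) :
    Module.finrank K (Derivation ℂ K K) = n := by
  have hA : Function.Injective (algebraMap A K) := IsFractionRing.injective A K
  have : Nontrivial A := ⟨0, 1, fun h => zero_ne_one (α := K) (by
    rw [← map_zero (algebraMap A K), h, map_one])⟩
  have h1 : Module.rank A (Ω[A⁄ℂ]) = n :=
    Algebra.IsStandardSmoothOfRelativeDimension.rank_kaehlerDifferential n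
  have h2 : IsLocalizedModule (nonZeroDivisors A) (KaehlerDifferential.map ℂ ℂ A K) :=
    inferInstance
  have h3 : Module.rank A (Ω[K⁄ℂ]) = Module.rank A (Ω[A⁄ℂ]) :=
    IsLocalizedModule.rank_eq (nonZeroDivisors A) le_rfl (KaehlerDifferential.map ℂ ℂ A K)
  have h4 : Module.rank K (Ω[K⁄ℂ]) = Module.rank A (Ω[K⁄ℂ]) :=
    IsLocalization.rank_eq K (nonZeroDivisors A) le_rfl
  have h5 : Module.rank K (Ω[K⁄ℂ]) = n := by rw [h4, h3, h1]
  have h6 : Module.finrank K (Ω[K⁄ℂ]) = n := Module.finrank_eq_of_rank_eq h5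
  rw [← (KaehlerDifferential.linearMapEquivDerivation ℂ K (M := K)).finrank_eq]
  exact (Subspace.dual_finrank_eq (K := K) (V := Ω[K⁄ℂ])).trans h6

end Alg

open Vale.Agent.P299

/-- The dimension of a variety which is smooth of relative dimension `n` over `ℂ`. -/
theorem dim_eq_of_smooth (V : Q.Var) (n : ℕ) (h : SmoothOfRelativeDimension n (V.X ↘ Q.SpecC)) :
    V.dim = n := by
  obtain ⟨U, hU, W, hW, hx, e, hf⟩ :=
    h.exists_isStandardSmoothOfRelativeDimension (genericPoint V.X)
  have hsub : Subsingleton Q.SpecC := inferInstanceAs (Subsingleton (PrimeSpectrum ℂ))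
  have hUt : U = ⊤ := by
    refine TopologicalSpace.Opens.ext (Set.eq_univ_of_forall fun y => ?_)
    rw [Subsingleton.elim y ((V.X ↘ Q.SpecC) (genericPoint V.X))]
    exact e hx
  subst hUt
  have : Nonempty W := ⟨⟨_, hx⟩⟩
  have h2 : (Q.cst W : ℂ →+* Γ(V.X, W)) = ((V.X ↘ Q.SpecC).appLE ⊤ W e).hom.comp
      (Scheme.ΓSpecIso (CommRingCat.of ℂ)).symm.commRingCatIsoToRingEquiv.toRingHom := by
    ext c
    rfl
  have h3 : (Q.cst W : ℂ →+* Γ(V.X, W)).IsStandardSmoothOfRelativeDimension n := by
    rw [h2]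
    exact RingHom.isStandardSmoothOfRelativeDimension_respectsIso.2 _ _ hf
  let _ : Algebra ℂ Γ(V.X, W) := (Q.cst W : ℂ →+* Γ(V.X, W)).toAlgebra
  have h4 : Algebra.IsStandardSmoothOfRelativeDimension n ℂ Γ(V.X, W) := h3
  have h5 : IsFractionRing Γ(V.X, W) V.K :=
    functionField_isFractionRing_of_isAffineOpen V.X W hW
  have h6 : IsScalarTower ℂ Γ(V.X, W) V.K :=
    IsScalarTower.of_algebraMap_eq fun c => (Q.germ_cst W c).symm
  exact finrank_derivation Γ(V.X, W) V.K h4

/-- The dimension, in the language `S`. -/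
theorem dim_eq_of_smooth' {X : S.PVar} {L : S.Div X} (hL : S.IsAmple L) {n : ℕ}
    (h : SmoothOfRelativeDimension n X.str) : S.dim X = n :=
  dim_eq_of_smooth (S.qv { X with ample := ⟨L, hL⟩ }) n h

end Vale.Agent.P271.Sch
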