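import Vale.Agent.P271.Sch.Dim
import Vale.Agent.P299.S.ConvHom

/-!
# The final statement: from the language `Q` to the language `S`
-/

open AlgebraicGeometry Order

namespace Vale.Agent.P271.Sch

open Vale.Agent.P299

/-- `K_X + mL` is globally generated for `m ≥ dim X + 1`, when `dim X ≥ 1`, in the internal
language `Q`. -/
def QFree : Prop :=
  ∀ (V : Q.Var) (κ L : Q.Div V.X), Q.IsCanonicalDivisor κ → Q.IsAmple L → 1 ≤ V.dim →
    ∀ m : ℕ, V.dim + 1 ≤ m → ∀ x : V.X, IsClosed ({x} : Set V.X) →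
      ∃ s ∈ Q.H0 (Q.coef (κ + m • L)), Q.GenAt (κ + m • L) s x

/-- There are no points of codimension one on a variety of dimension zero. -/
theorem coheight_ne_one_of_dim_eq_zero {V : Q.Var} (h : V.dim = 0) (y : V.X) :
    coheight y ≠ 1 := by
  intro hy
  obtain ⟨-, -, -, -, -, -, h5⟩ := exists_frame_dim V y
  rw [h, ringKrullDim_stalk_eq_coheight, hy] at h5
  exact absurd h5 (by decide)

/-- Every point specializes to a closed point. -/
theorem exists_closed_point (V : Q.Var) (x : V.X) :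
    ∃ x₀ : V.X, IsClosed ({x₀} : Set V.X) ∧ x ⤳ x₀ := by
  obtain ⟨x₀, hx₀, hc⟩ := IsClosed.exists_closed_singleton
    (isClosed_closure (s := ({x} : Set V.X))) ⟨x, subset_closure rfl⟩
  exact ⟨x₀, hc, specializes_iff_mem_closure.2 hx₀⟩

/-- Generation at a point implies generation at its generizations. -/
theorem genAt_of_specializes {V : Q.Var} {D : Q.Div V.X} {s : V.K} {x x₀ : V.X} (h : x ⤳ x₀)
    (hs : Q.GenAt D s x₀) : Q.GenAt D s x :=
  ⟨hs.1, fun y hy hyx => hs.2 y hy (hyx.trans h)⟩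

/-- The internal statement, for all points and dimensions, in the language `S`. -/
theorem final_aux (hQ : QFree) (V : Q.Var) (κ L : Q.Div V.X) (hκ : S.IsCanonical (X := S.pv V) κ)
    (hL : S.IsAmple (X := S.pv V) L) (m : ℕ) (hm : V.dim + 1 ≤ m) (x : V.X) :
    ∃ s : V.K, S.IsSec (X := S.pv V) (κ + m • L) s ∧ S.GenAt (X := S.pv V) (κ + m • L) s x := by
  have key : ∃ s ∈ Q.H0 (Q.coef (κ + m • L)), Q.GenAt (κ + m • L) s x := by
    rcases Nat.eq_zero_or_pos V.dim with h0 | h0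
    · refine ⟨1, ?_, one_ne_zero, fun y hy => absurd hy (coheight_ne_one_of_dim_eq_zero h0 y)⟩
      rw [Q.mem_H0]
      exact fun y hy => absurd hy (coheight_ne_one_of_dim_eq_zero h0 y)
    · obtain ⟨x₀, hx₀, hx⟩ := exists_closed_point V x
      obtain ⟨s, hs, hsx⟩ := hQ V κ L ((S.isCanonical_iff κ).2 hκ) ((S.isAmple_iff L).2 hL) h0 m hm
        x₀ hx₀
      exact ⟨s, hs, genAt_of_specializes hx hsx⟩
  obtain ⟨s, hs, hsx⟩ := key
  exact ⟨s, (S.mem_H0_iff (κ + m • L) s).1 hs, (S.genAt_iff (κ + m • L) s x).1 hsx⟩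

/-- The final statement follows from the internal one. -/
theorem final_of_QFree (hQ : QFree) (X : S.PVar) (κ L : S.Div X) (hκ : S.IsCanonical κ)
    (hL : S.IsAmple L) (m : ℕ) (hm : S.dim X + 1 ≤ m) (x : S.Pt X.X) :
    ∃ s : S.K X, S.IsSec (κ + m • L) s ∧ S.GenAt (κ + m • L) s x :=
  final_aux hQ (S.qv { X with ample := ⟨L, hL⟩ }) κ L hκ hL m hm x

end Vale.Agent.P271.Sch
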