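import Vale.Agent.P271.Sch.FujDefs
import Vale.Agent.P271.Sch.O280S
import Vale.Agent.P271.Sch.O280D
import Vale.Agent.P299.Q.AsymKV

/-!
# The final statement
-/

open CategoryTheory Opposite Order AlgebraicGeometry

namespace Vale.Agent.P271.Fuj

open Vale.Agent.P299 Vale.Agent.P271.Sch

namespace Var

variable {n : ℕ}

/-- The variety in the language `S`. -/
noncomputable abbrev toS (V : Var n) : S.PVar where
  X := V.X
  str := V.str
  int := V.int
  smooth := SmoothOfRelativeDimension.smooth n V.str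
  proper := V.proper

variable {V : Var n}

theorem coef_eq (D : V.Div) (y : V.PrimeDiv) : S.coef (X := V.toS) D y.1 = D y :=
  dif_pos y.2

theorem isSection_iff (D : V.Div) (f : V.K) :
    IsSection D f ↔ S.IsSec (X := V.toS) D f := by
  constructor
  · intro h x hx h0
    have := h h0 ⟨x, hx⟩
    rw [← coef_eq D ⟨x, hx⟩] at this
    exact this
  · intro h h0 y
    have := h y.1 y.2 h0
    rw [coef_eq D y] at this
    exact this

theorem generatesAt_iff (D : V.Div) (f : V.K) (x : V.X) :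
    GeneratesAt D f x ↔ S.GenAt (X := V.toS) D f x := by
  refine and_congr_right fun _ => ⟨fun h y hy hyx => ?_, fun h y hyx => ?_⟩
  · have := h ⟨y, hy⟩ hyx
    rw [← coef_eq D ⟨y, hy⟩] at this
    exact this
  · have := h y.1 y.2 hyx
    rw [coef_eq D y] at this
    exact this

theorem isAmple_iff (A : V.Div) : IsAmple A ↔ S.IsAmple (X := V.toS) A := by
  constructor
  · intro h x
    obtain ⟨m, s, U, hm, hs, hU, hx, hy⟩ := h x
    exact ⟨m, s, U, hm, (isSection_iff _ _).1 hs, hU, hx,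
      fun y => (hy y).trans (generatesAt_iff _ _ _)⟩
  · intro h x
    obtain ⟨m, s, U, hm, hs, hU, hx, hy⟩ := h x
    exact ⟨m, s, U, hm, (isSection_iff _ _).2 hs, hU, hx,
      fun y => (hy y).trans (generatesAt_iff _ _ _).symm⟩

theorem regularAt_iff (f : V.K) (x : V.X) : RegularAt f x ↔ S.Reg (X := V.toS) f x := Iff.rfl

theorem isRegularFieldAt_iff (v : V.Der) (x : V.X) :
    IsRegularFieldAt v x ↔ S.RegDer (X := V.toS) v x := Iff.rfl

/-- Canonical divisors, with the degree of the form as a parameter. -/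
def IsCan (V : Var n) (N : ℕ) (κ : V.Div) : Prop :=
  ∃ ω : S.Ten V.toS N, S.Nonzero ω ∧ S.IsAlt ω ∧ S.IsDivTensor ω κ

theorem IsCanonical.isCan {κ : V.Div} (h : IsCanonical κ) : IsCan V n κ := by
  obtain ⟨ω, h0, h1⟩ := h
  refine ⟨ω.toMultilinearMap, h0, fun v i j hv hij => ω.map_eq_zero_of_eq v hv hij, ?_⟩
  intro x hx
  have h2 := h1 ⟨x, hx⟩
  have h3 : S.coef (X := V.toS) κ x = κ ⟨x, hx⟩ := coef_eq κ ⟨x, hx⟩
  rw [h3]
  have h4 : {k : ℤ | ∃ f, S.IsValue (X := V.toS) ω.toMultilinearMap x f ∧ f ≠ 0 ∧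
      S.ord (X := V.toS) f x = k} = {k : ℤ | ∃ v : Fin n → V.Der,
      (∀ i, IsRegularFieldAt (v i) x) ∧ ω.value v ≠ 0 ∧ ordAlong (ω.value v) ⟨x, hx⟩ = k} := by
    ext k
    constructor
    · rintro ⟨f, ⟨v, hv, rfl⟩, h5, h6⟩
      exact ⟨v, hv, h5, h6⟩
    · rintro ⟨v, hv, h5, h6⟩
      exact ⟨ω v, ⟨v, hv, rfl⟩, h5, h6⟩
  rw [h4]
  exact h2

theorem IsCan.isCanonical {κ : V.Div} (h : IsCan V n κ) : IsCanonical κ := by
  obtain ⟨ω, h0, h1, h2⟩ := h
  refine ⟨{ ω with map_eq_zero_of_eq' := fun v i j hv hij => h1 v i j hv hij }, h0, ?_⟩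
  intro y
  have h3 := h2 y.1 y.2
  have h5 : S.coef (X := V.toS) κ y.1 = κ y := coef_eq κ y
  rw [h5] at h3
  have h4 : {k : ℤ | ∃ f, S.IsValue (X := V.toS) ω y.1 f ∧ f ≠ 0 ∧
      S.ord (X := V.toS) f y.1 = k} = {k : ℤ | ∃ v : Fin n → V.Der,
      (∀ i, IsRegularFieldAt (v i) y.1) ∧ ω v ≠ 0 ∧ ordAlong (ω v) y = k} := by
    ext k
    constructor
    · rintro ⟨f, ⟨v, hv, rfl⟩, h5, h6⟩
      exact ⟨v, hv, h5, h6⟩
    · rintro ⟨v, hv, h5, h6⟩
      exact ⟨ω v, ⟨v, hv, rfl⟩, h5, h6⟩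
  rw [h4] at h3
  exact h3

theorem isCanonical_iff {L : V.Div} (hL : IsAmple L) (κ : V.Div) :
    IsCanonical κ ↔ S.IsCanonical (X := V.toS) κ := by
  have hdim : S.dim V.toS = n := dim_eq_of_smooth' ((isAmple_iff L).1 hL) V.smooth
  have h1 : S.IsCanonical (X := V.toS) κ ↔ IsCan V n κ := by
    have h2 : IsCan V (S.dim V.toS) κ ↔ IsCan V n κ := by rw [hdim]
    exact h2
  rw [h1]
  exact ⟨IsCanonical.isCan, IsCan.isCanonical⟩

/-- A smooth projective variety has a canonical divisor. -/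
theorem exists_isCanonical {L : V.Div} (hL : IsAmple L) : ∃ κ : V.Div, IsCanonical κ := by
  obtain ⟨κ, hκ⟩ := Q.exists_isCanonicalDivisor
    (S.qv { V.toS with ample := ⟨L, (isAmple_iff L).1 hL⟩ })
  exact ⟨κ, (isCanonical_iff hL κ).2 ((S.isCanonical_iff _).1 hκ)⟩

end Var

/-- The final statement follows from the internal one. -/
theorem result_of_QFree (hQ : QFree) (n : ℕ) (V : Var n) (L : V.Div) (hL : Var.IsAmple L) :
    (∃ κ : V.Div, Var.IsCanonical κ) ∧ ∀ κ : V.Div, Var.IsCanonical κ → ∀ m : ℕ, n + 1 ≤ m →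
      Var.IsGloballyGenerated (κ + m • L) := by
  refine ⟨Var.exists_isCanonical hL, fun κ hκ m hm x => ?_⟩
  have hdim : S.dim V.toS = n := dim_eq_of_smooth' ((Var.isAmple_iff L).1 hL) V.smooth
  obtain ⟨s, hs, hsx⟩ := final_of_QFree hQ V.toS κ L ((Var.isCanonical_iff hL κ).1 hκ)
    ((Var.isAmple_iff L).1 hL) m (by rw [hdim]; exact hm) x
  exact ⟨s, (Var.isSection_iff _ _).2 hs, (Var.generatesAt_iff _ _ _).2 hsx⟩

end Vale.Agent.P271.Fuj
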