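import Mathlib.AlgebraicGeometry.OrderOfVanishing
import Mathlib.AlgebraicGeometry.Noetherian
import Mathlib.AlgebraicGeometry.Morphisms.Proper
import Mathlib.AlgebraicGeometry.Morphisms.Smooth
import Mathlib.Analysis.Complex.Basic
import Mathlib.RingTheory.Derivation.Basic
import Mathlib.LinearAlgebra.Alternating.Basic

/-!
# Smooth projective varieties over `ℂ`, line bundles, the canonical bundle

Line bundles on a smooth variety are given by Weil divisors: the sections of `O_X(D)` are the
rational functions `f` with `div f + D ≥ 0`.
-/

open CategoryTheory Opposite AlgebraicGeometry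

namespace Vale.Agent.P271.Fuj

/-! ### Schemes -/

/-- The set of the points of the scheme `X`. -/
def Pt (X : Scheme.{0}) : Type := X

/-- The codimension of the point `x`. -/
noncomputable def codim {X : Scheme.{0}} (x : Pt X) : ℕ∞ := Order.coheight (α := X) x

/-- The point `x` lies in the closure of the point `y`. -/
def Spe {X : Scheme.{0}} (y x : Pt X) : Prop := @Specializes X _ y x

/-- The local ring of `X` at `x`. -/
noncomputable def stk (X : Scheme.{0}) (x : Pt X) : CommRingCat.{0} := X.presheaf.stalk x

/-- The generic point. -/
noncomputable def gp (X : Scheme.{0}) [IsIntegral X] : Pt X := genericPoint X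

theorem spe_gp {X : Scheme.{0}} [IsIntegral X] (x : Pt X) : Spe (gp X) x :=
  (genericPoint_spec X).specializes trivial

/-- The map from the local ring at `x` to the function field. -/
noncomputable def toGp {X : Scheme.{0}} [IsIntegral X] (x : Pt X) : stk X x ⟶ stk X (gp X) :=
  X.presheaf.stalkSpecializes (spe_gp x)

/-- The ring of global functions on the scheme `X`. -/
noncomputable def Gam (X : Scheme.{0}) : CommRingCat.{0} := X.presheaf.obj (op ⊤)

/-- The germ at the generic point of a global function. -/
noncomputable def germGp (X : Scheme.{0}) [IsIntegral X] : Gam X ⟶ stk X (gp X) :=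
  X.presheaf.germ ⊤ (gp X) trivial

/-- The pull back of functions. -/
noncomputable def pullTop {X Y : Scheme.{0}} (f : X ⟶ Y) : Gam Y ⟶ Gam X := f.appTop

/-- The scheme `Spec ℂ`. -/
noncomputable def SpecC : Scheme.{0} := Spec (CommRingCat.of ℂ)

/-- The complex numbers, as functions on `Spec ℂ`. -/
noncomputable def num : CommRingCat.of ℂ ⟶ Gam SpecC :=
  Iso.inv (Scheme.ΓSpecIso (CommRingCat.of ℂ))

/-! ### Varieties and divisors -/

/-- A smooth proper connected variety of dimension `n` over `ℂ`. -/
structure Var (n : ℕ) where
  /-- the scheme -/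
  X : Scheme.{0}
  /-- the structure morphism -/
  str : X ⟶ SpecC
  [int : IsIntegral X]
  [smooth : SmoothOfRelativeDimension n str]
  [proper : IsProper str]

attribute [instance] Var.int Var.smooth Var.proper

namespace Var

variable {n : ℕ}

instance (V : Var n) : IsLocallyNoetherian V.X := by
  have := SmoothOfRelativeDimension.smooth n V.str
  have : IsLocallyNoetherian SpecC := inferInstanceAs (IsLocallyNoetherian (Spec (CommRingCat.of ℂ)))
  exact LocallyOfFiniteType.isLocallyNoetherian V.str

/-- The function field `ℂ(X)`. -/
def K (V : Var n) : Type := stk V.X (gp V.X)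

noncomputable instance instFieldK (V : Var n) : Field V.K :=
  (inferInstance : Field V.X.functionField)

/-- The constants in `ℂ(X)`. -/
noncomputable instance instAlgebraK (V : Var n) : Algebra ℂ V.K :=
  (num ≫ pullTop V.str ≫ germGp V.X).hom.toAlgebra

/-- The prime divisors on `X`, given by their generic points. -/
def PrimeDiv (V : Var n) : Type := {y : Pt V.X // codim y = 1}

/-- The generic point of a prime divisor. -/
def PrimeDiv.pt {V : Var n} (y : V.PrimeDiv) : Pt V.X := y.1

/-- The divisors on `X` (line bundles, since `X` is smooth). -/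
abbrev Div (V : Var n) : Type := V.PrimeDiv →₀ ℤ

variable {V : Var n}

/-- The order of the rational function `f` along the prime divisor `y`. -/
noncomputable def ordAlong (f : V.K) (y : V.PrimeDiv) : ℤ := Scheme.ord (X := V.X) f y.pt

/-- `f ∈ H^0(X, O_X(D))`: `f = 0` or `div f + D ≥ 0`. -/
def IsSection (D : V.Div) (f : V.K) : Prop :=
  f ≠ 0 → ∀ y : V.PrimeDiv, 0 ≤ ordAlong f y + D y

/-- `f` generates `O_X(D)` at the point `x`: `div f + D = 0` near `x`, which means at all prime
divisors containing `x`. -/
def GeneratesAt (D : V.Div) (f : V.K) (x : Pt V.X) : Prop :=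
  f ≠ 0 ∧ ∀ y : V.PrimeDiv, Spe y.pt x → ordAlong f y + D y = 0

/-- `O_X(D)` is globally generated: at every point `x` it is generated by a global section. -/
def IsGloballyGenerated (D : V.Div) : Prop :=
  ∀ x : Pt V.X, ∃ s : V.K, IsSection D s ∧ GeneratesAt D s x

/-- `A` is ample: every point of `X` lies in an affine open set of the form `X_s`, with
`s ∈ H^0(X, mA)` and `m > 0`, where `X_s` is the set where `s` generates `O_X(mA)`. -/
def IsAmple (A : V.Div) : Prop :=
  ∀ x : Pt V.X, ∃ (m : ℕ) (s : V.K) (U : V.X.Opens), 0 < m ∧ IsSection (m • A) s ∧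
    IsAffineOpen U ∧ x ∈ U ∧ ∀ y : Pt V.X, y ∈ U ↔ GeneratesAt (m • A) s y

/-- The rational function given by an element of the local ring at `x`. -/
noncomputable def ofStk {x : Pt V.X} (a : stk V.X x) : V.K := (toGp x).hom a

/-- The rational function `f` is regular at the point `x`: it comes from the local ring at `x`. -/
def RegularAt (f : V.K) (x : Pt V.X) : Prop := ∃ a : stk V.X x, ofStk a = f

/-- The rational vector fields on `X`. -/
abbrev Der (V : Var n) : Type := Derivation ℂ V.K V.K

/-- The derivative of the function `f` in the direction of the vector field `v`. -/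
noncomputable def Der.app (v : V.Der) (f : V.K) : V.K := v f

/-- The rational vector field `v` is regular at the point `x`: it preserves the local ring. -/
def IsRegularFieldAt (v : V.Der) (x : Pt V.X) : Prop :=
  ∀ f : V.K, RegularAt f x → RegularAt (v.app f) x

/-- The rational differential forms of degree `n = dim X`. -/
abbrev Form (V : Var n) : Type := V.Der [⋀^Fin n]→ₗ[V.K] V.K

/-- The value of the form `ω` at the vector fields `v_1, …, v_n`. -/
noncomputable def Form.value (ω : V.Form) (v : Fin n → V.Der) : V.K := ω v

/-- `κ` is the divisor of the rational differential form `ω`: its coefficient at the prime divisor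
`y` is the least order along `y` of the nonzero values of `ω` at vector fields regular at `y`. -/
def IsDivisorOf (κ : V.Div) (ω : V.Form) : Prop :=
  ∀ y : V.PrimeDiv, IsLeast {k : ℤ | ∃ v : Fin n → V.Der,
    (∀ i, IsRegularFieldAt (v i) y.pt) ∧ ω.value v ≠ 0 ∧ ordAlong (ω.value v) y = k} (κ y)

/-- `κ` is a canonical divisor of `X` (so `O_X(κ)` is the canonical bundle `K_X`): the divisor of a
nonzero rational differential form of degree `n = dim X`. -/
def IsCanonical (κ : V.Div) : Prop := ∃ ω : V.Form, (∃ v, ω.value v ≠ 0) ∧ IsDivisorOf κ ω

end Var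

end Vale.Agent.P271.Fuj
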