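import Vale.Agent.P271.Sch.Form
import Vale.Agent.P271.Sch.O280S

/-!
# From the homogeneous form on the cone to the section of `K_X + mL`
-/

open AlgebraicGeometry Order Polynomial IsLocalRing

namespace Vale.Agent.P271.Sch

open Vale.Agent.P299 Vale.Agent.P299.Q Vale.Agent.P299.G

variable {V : Q.Var} {L : Q.Div V.X}

theorem det_mem_subring {F : Type} [Field F] (S : Subring F) {n : ℕ}
    {M : Matrix (Fin n) (Fin n) F} (h : ∀ i j, M i j ∈ S) : M.det ∈ S := by
  rw [Matrix.det_apply]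
  refine sum_mem fun σ _ => ?_
  rw [Units.smul_def]
  exact zsmul_mem (prod_mem fun i _ => h _ _) _

theorem alpha_eq {k : ℕ} {f : secRing L} (hf : f ∈ grade L k) :
    alpha L f = iT V (C (f.1.coeff k)) * iT V Polynomial.X ^ k := by
  rw [← iT_monomial']
  exact congrArg (iT V) (eq_monomial hf)

theorem coeff_ne_zero {k : ℕ} {f : secRing L} (hf : f ∈ grade L k) (h0 : f ≠ 0) :
    f.1.coeff k ≠ 0 := by
  intro h
  apply h0
  apply Subtype.ext
  rw [eq_monomial hf, h, monomial_zero_right]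
  rfl

section Value

variable {x : V.X} {g : V.K} {n : ℕ} {w : Fin n → V.Der}
  {W : Fin (n + 1) → Derivation ℂ (KT V) (KT V)} {z : Fin (n + 1) → secRing L}
  {d : Fin (n + 1) → ℕ} {a b : secRing L} {i j m : ℕ}

/-- The value of the homogeneous form on the frame. -/
theorem value_eq (hW : Ext g w W) (hg : g ≠ 0) (hz : ∀ k, z k ∈ grade L (d k))
    (ha : a ∈ grade L i) (hb : b ∈ grade L j) (hb0 : b ≠ 0) (hdeg : i + ∑ k, d k = m + j) :
    alpha L a / alpha L b * (Matrix.of fun i k => W i (alpha L (z k))).det =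
      iT V (C (form (a.1.coeff i / b.1.coeff j) d (fun k => (z k).1.coeff (d k)) w / g ^ m)) *
        tau g ^ m * (tau g)⁻¹ := by
  have h1 := hW.det_eq hg d (fun k => (z k).1.coeff (d k)) (fun k => alpha L (z k))
    (fun k => congrArg (iT V) (eq_monomial (hz k)))
  rw [h1, alpha_eq ha, alpha_eq hb, form_apply]
  set ι : V.K →+* KT V := (iT V : Polynomial V.K →+* KT V).comp C with hι
  have hιa : ∀ o, iT V (C o) = ι o := fun o => rfl
  have hb1 : ι (b.1.coeff j) ≠ 0 := (map_ne_zero ι).2 (coeff_ne_zero hb hb0)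
  have hg1 : ι g ≠ 0 := (map_ne_zero ι).2 hg
  have hX := iT_X_ne_zero (V := V)
  have ht := tau_ne_zero (V := V) hg
  simp only [hιa]
  rw [map_div₀, map_mul, map_div₀, map_pow, tau_eq, hιa]
  have h2 : iT V Polynomial.X ^ i * iT V Polynomial.X ^ (∑ k, d k) =
      iT V Polynomial.X ^ m * iT V Polynomial.X ^ j := by
    rw [← pow_add, hdeg, pow_add]
  field_simp
  linear_combination ι (a.1.coeff i) * ι (rows d (fun k => (z k).1.coeff (d k)) w).det *
    ι g ^ m * h2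

/-- The value on other derivations. -/
theorem value_expand (hW : Ext g w W) (hg : g ≠ 0) {t : Fin n → V.K}
    (ht : ∀ i j, w i (t j) = if i = j then 1 else 0)
    (hv : ∀ v : V.Der, v = ∑ i, v (t i) • w i) (E : Fin (n + 1) → Derivation ℂ (KT V) (KT V))
    (y : Fin (n + 1) → KT V) :
    (Matrix.of fun i k => E i (y k)).det =
      (Matrix.of fun i l => E i (coords g t l)).det * (Matrix.of fun i k => W i (y k)).det := by
  rw [← Matrix.det_mul]
  congr 1
  ext i k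
  rw [Matrix.mul_apply]
  exact der_expand hg hW ht hv (E i) (y k)

/-- Elimination of the powers of `τ`. -/
theorem mem_locRing_of_value (hL : IsAmple L) (hx : IsClosed {x}) (hg : GenAt L g x) {o : V.K}
    (h : iT V (C o) * tau g ^ m * (tau g)⁻¹ ∈ locF (alpha L) (alpha_injective L) (ptI hx hg)) :
    o ∈ locRing V x := by
  apply mem_locRing_of_locF hx hg
  have h1 := tau_mem_locF hL (liesOver_pt hx hg) hg
  have h2 := inv_tau_mem hL (liesOver_pt hx hg) hg
  have h0 := tau_ne_zero (V := V) hg.1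
  have h3 := mul_mem (mul_mem h (pow_mem h2 m)) h1
  have h4 : iT V (C o) * tau g ^ m * (tau g)⁻¹ * (tau g)⁻¹ ^ m * tau g = iT V (C o) := by
    rw [inv_pow]
    field_simp
  rwa [h4] at h3

theorem inv_mem_locRing_of_value (hL : IsAmple L) (hx : IsClosed {x}) (hg : GenAt L g x) {o : V.K}
    {P : KT V} (hP : P ∈ locF (alpha L) (alpha_injective L) (ptI hx hg))
    (h0 : P * (iT V (C o) * tau g ^ m * (tau g)⁻¹) ≠ 0)
    (h : (P * (iT V (C o) * tau g ^ m * (tau g)⁻¹))⁻¹ ∈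
      locF (alpha L) (alpha_injective L) (ptI hx hg)) :
    o ≠ 0 ∧ o⁻¹ ∈ locRing V x := by
  have hP0 := left_ne_zero_of_mul h0
  have ho : o ≠ 0 := by
    rintro rfl
    apply h0
    rw [C_0, map_zero, zero_mul, zero_mul, mul_zero]
  refine ⟨ho, ?_⟩
  apply mem_locRing_of_locF hx hg
  have h1 := tau_mem_locF hL (liesOver_pt hx hg) hg
  have h2 := inv_tau_mem hL (liesOver_pt hx hg) hg
  have ht := tau_ne_zero (V := V) hg.1
  have hC : iT V (C o) ≠ 0 := (map_ne_zero_iff _ (iT_injective V)).2 (C_ne_zero.2 ho)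
  have h3 := mul_mem (mul_mem (mul_mem h hP) (pow_mem h1 m)) h2
  have h4 : (P * (iT V (C o) * tau g ^ m * (tau g)⁻¹))⁻¹ * P * tau g ^ m * (tau g)⁻¹ =
      iT V (C o⁻¹) := by
    have h5 : iT V (C o⁻¹) = (iT V (C o))⁻¹ := by
      refine eq_inv_of_mul_eq_one_left ?_
      rw [← map_mul, ← C_mul, inv_mul_cancel₀ ho, C_1, map_one]
    rw [h5]
    field_simp
  rwa [h4] at h3

end Value

/-- The quotient of two top forms does not depend on the frame. -/
theorem quotient_frame {ω Ω : V.Ten V.dim} (hω : IsAlt ω) (hΩ : IsAlt Ω)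
    {t : Fin V.dim → V.K} {w : Fin V.dim → V.Der}
    (h1 : ∀ i j, w i (t j) = if i = j then 1 else 0)
    (h2 : ∀ v : V.Der, v = ∑ i, v (t i) • w i) (w₀ : Fin V.dim → V.Der) (h0 : ω w₀ ≠ 0) :
    Ω w₀ / ω w₀ = Ω w / ω w := by
  rw [exists_det hω h1 h2 w₀] at h0 ⊢
  rw [exists_det hΩ h1 h2 w₀, mul_div_mul_right _ _ (right_ne_zero_of_mul h0)]

/-- The section of `κ + mL`. -/
theorem exists_section (hL : IsAmple L) {κ : Q.Div V.X} (hκ : IsCanonicalDivisor κ) (m : ℕ)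
    (hGen : ∀ φ : (cone hL).Pt, GCone.NV φ → GCone.Gen m φ) {x₀ : V.X}
    (hx₀ : IsClosed ({x₀} : Set V.X)) :
    ∃ s ∈ H0 (coef (κ + m • L)), GenAt (κ + m • L) s x₀ := by
  obtain ⟨ω, hω0, hω, hdiv⟩ := hκ
  have := ufd V x₀
  obtain ⟨g₀, hg₀⟩ := exists_genAt L x₀
  obtain ⟨z, d, a, b, i, j, hz, ha, hb, hb0, hdeg, hreg, E, hE, hne, hinv⟩ :=
    GCone.gen_field (C := cone hL) (alpha L) (alpha_injective L) (fun _ => rfl)
      (exists_quotient hL) (hGen (pt hx₀ hg₀) (nv_pt hL hx₀ hg₀))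
  obtain ⟨t₀, w₀, ht₀, hw₀, h1₀, h2₀⟩ := exists_frame_at V x₀
  set Ω : V.Ten V.dim := (form (a.1.coeff i / b.1.coeff j) d
    (fun k => (z k).1.coeff (d k))).toMultilinearMap with hΩdef
  have hΩ : IsAlt Ω := fun v i j hij hne => AlternatingMap.map_eq_zero_of_eq _ v hij hne
  have hω₀ : ω w₀ ≠ 0 := value_frame_ne_zero hω0 hω h1₀ h2₀
  -- the order of the section
  have hord : ∀ (x : V.X), IsClosed ({x} : Set V.X) → ∀ (g : V.K), GenAt L g x →
      ∀ (t : Fin V.dim → V.K) (w : Fin V.dim → V.Der), (∀ j, t j ∈ locRing V x) →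
      (∀ i, RegDer x (w i)) → (∀ i j, w i (t j) = if i = j then 1 else 0) →
      (∀ v : V.Der, v = ∑ i, v (t i) • w i) → ∀ y : V.X, coheight y = 1 → y ⤳ x → Ω w ≠ 0 →
      Scheme.ord (Ω w₀ / ω w₀) y + coef (κ + m • L) y = Scheme.ord (Ω w / g ^ m) y := by
    intro x hx g hg t w ht hw h1 h2 y hy hyx hΩw
    have hωx := genAt_of_frame hω0 hω hdiv ht hw h1 h2
    rw [quotient_frame hω hΩ h1 h2 w₀ hω₀, ord_div hΩw hωx.1 y,
      ord_div hΩw (pow_ne_zero _ hg.1) y, ord_pow hg.1, coef_add, coef_nsmul]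
    have h3 := hωx.2 y hy hyx
    rw [coef_neg] at h3
    have h4 := hg.2 y hy hyx
    have h5 : (m : ℤ) * (Scheme.ord g y + coef L y) = 0 := by rw [h4, mul_zero]
    linarith
  -- at the point `x₀`
  have hunit : Ω w₀ ≠ 0 ∧ Ω w₀ / g₀ ^ m ∈ locRing V x₀ ∧ (Ω w₀ / g₀ ^ m)⁻¹ ∈ locRing V x₀ := by
    obtain ⟨W, hW⟩ := exists_ext g₀ w₀
    have e := value_eq (m := m) hW hg₀.1 hz ha hb hb0 hdeg
    have h3 := hreg (pt hx₀ hg₀) (nv_pt hL hx₀ hg₀) W (fun k f hf =>
      hW.regular hL (liesOver_pt hx₀ hg₀) hg₀ hw₀ k hf)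
    have h4 : Ω w₀ / g₀ ^ m ∈ locRing V x₀ := by
      refine mem_locRing_of_value (m := m) hL hx₀ hg₀ ?_
      exact (congrArg (fun q => q ∈ locF (alpha L) (alpha_injective L) (ptI hx₀ hg₀)) e).mp h3
    have e2 : alpha L a / alpha L b * (Matrix.of fun i k => E i (alpha L (z k))).det =
        (Matrix.of fun i l => E i (coords g₀ t₀ l)).det *
          (iT V (C (Ω w₀ / g₀ ^ m)) * tau g₀ ^ m * (tau g₀)⁻¹) := by
      rw [value_expand hW hg₀.1 h1₀ h2₀ E]
      rw [mul_left_comm]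
      exact congrArg _ e
    have hP : (Matrix.of fun i l => E i (coords g₀ t₀ l)).det ∈
        locF (alpha L) (alpha_injective L) (ptI hx₀ hg₀) :=
      det_mem_subring _ fun i l => hE i _ (coords_mem hL (liesOver_pt hx₀ hg₀) hg₀ ht₀ l)
    have h5 := inv_mem_locRing_of_value (m := m) hL hx₀ hg₀ hP (by rw [← e2]; exact hne)
      (by rw [← e2]; exact hinv)
    exact ⟨(div_ne_zero_iff.1 h5.1).1, h4, h5.2⟩
  refine ⟨Ω w₀ / ω w₀, ?_, ?_, ?_⟩
  · rw [mem_H0]
    intro y hy hs0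
    obtain ⟨x, hyx, hx⟩ := exists_closed y
    have := ufd V x
    obtain ⟨g, hg⟩ := exists_genAt L x
    obtain ⟨t, w, ht, hw, h1, h2⟩ := exists_frame_at V x
    obtain ⟨W, hW⟩ := exists_ext g w
    have hΩw : Ω w ≠ 0 := by
      intro h0
      apply hs0
      rw [quotient_frame hω hΩ h1 h2 w₀ hω₀, h0, zero_div]
    rw [hord x hx g hg t w ht hw h1 h2 y hy hyx hΩw]
    have h3 := hreg (pt hx hg) (nv_pt hL hx hg) W (fun k f hf =>
      hW.regular hL (liesOver_pt hx hg) hg hw k hf)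
    have h4 : Ω w / g ^ m ∈ locRing V x := by
      refine mem_locRing_of_value (m := m) hL hx hg ?_
      have e := value_eq (m := m) hW hg.1 hz ha hb hb0 hdeg
      exact (congrArg (fun q => q ∈ locF (alpha L) (alpha_injective L) (ptI hx hg)) e).mp h3
    exact ord_nonneg_of_locRing (locRing_le hyx h4)
  · exact div_ne_zero hunit.1 hω₀
  · intro y hy hyx
    rw [hord x₀ hx₀ g₀ hg₀ t₀ w₀ ht₀ hw₀ h1₀ h2₀ y hy hyx hunit.1]
    have h4 : 0 ≤ Scheme.ord (Ω w₀ / g₀ ^ m) y := ord_nonneg_of_locRing (locRing_le hyx hunit.2.1)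
    have h5 : 0 ≤ Scheme.ord (Ω w₀ / g₀ ^ m)⁻¹ y :=
      ord_nonneg_of_locRing (locRing_le hyx hunit.2.2)
    rw [← one_div, ord_div one_ne_zero (div_ne_zero hunit.1 (pow_ne_zero _ hg₀.1)) y, ord_one] at h5
    omega

/-- `K_X + mL` is globally generated for `m ≥ dim X + 1`, given the hub theorem. -/
theorem qFree_of_hub (hub : HubFujita) : QFree := fun V _ _ hκ hL h1 m hm _ hx =>
  exists_section hL hκ m (hub V.dim h1 (cone hL) m hm) hx

end Vale.Agent.P271.Sch
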