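import Vale.Agent.P271.Sch.FujBridge
import Vale.Agent.P271.Sch.Out

/-!
# The final statement from the hub statement
-/

namespace Vale.Agent.P271.Fuj

open Vale.Agent.P271.Sch

/-- `K_X + mL` is globally generated for `m ≥ n + 1`: from the statement about graded cones. -/
theorem result_of_hub (h : HubFujita) (n : ℕ) (V : Var n) (L : V.Div) (hL : Var.IsAmple L) :
    (∃ κ : V.Div, Var.IsCanonical κ) ∧ ∀ κ : V.Div, Var.IsCanonical κ → ∀ m : ℕ, n + 1 ≤ m →
      Var.IsGloballyGenerated (κ + m • L) :=
  result_of_QFree (qFree_of_hub h) n V L hL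

end Vale.Agent.P271.Fuj
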