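import Vale.Agent.P271.Sch.Fin
import Vale.Agent.P271.Sch.Alg
import Vale.Agent.P271.Sch.Der
import Vale.Agent.P299.Q.SnapSections

/-!
# The local rings of the section ring of an ample divisor
-/

open AlgebraicGeometry Order Polynomial IsLocalRing

namespace Vale.Agent.P271.Sch

open Vale.Agent.P299 Vale.Agent.P299.Q

variable {V : Q.Var} {L : Q.Div V.X}

/-- Denominators: a local section of `O(D)` at `x`, multiplied by a section of a multiple of the
ample divisor `L` which generates at `x`, is a global section. -/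
theorem exists_denominator (hL : IsAmple L) (D : Q.Div V.X) {h : V.K} {x : V.X}
    (hh : ∀ z : V.X, coheight z = 1 → z ⤳ x → h ≠ 0 → 0 ≤ Scheme.ord h z + coef D z) :
    ∃ m : ℕ, 0 < m ∧ ∃ s ∈ H0 (coef (m • L)), GenAt (m • L) s x ∧
      h * s ∈ H0 (coef (D + m • L)) := by
  by_cases h0 : h = 0
  · obtain ⟨m, hm, s, hs, U, -, hxU, -, hU⟩ := hL.exists_small (ufd V) x ⊤ trivial
    refine ⟨m, hm, s, hs, (hU x).1 hxU, ?_⟩
    rw [h0, zero_mul]
    exact Submodule.zero_mem _
  set Z : Set V.X := {z | coheight z = 1 ∧ Scheme.ord h z + coef D z < 0} with hZ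
  have hfin : {z : V.X | Scheme.ord h z + coef D z ≠ 0}.Finite := by
    refine ((G.finite_ord_ne_zero h h0).union (finite_coef D)).subset fun z hz => ?_
    by_contra hc
    simp only [Set.mem_union, Set.mem_ofPred_eq, not_or, not_not] at hc
    rw [Set.mem_ofPred_eq, hc.1, hc.2] at hz
    exact hz (by norm_num)
  have hZfin : Z.Finite := hfin.subset fun z hz => (hz.2).ne
  have hclosed : IsClosed (⋃ z ∈ Z, closure ({z} : Set V.X)) :=
    hZfin.isClosed_biUnion fun z _ => isClosed_closure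
  let W : V.X.Opens := ⟨(⋃ z ∈ Z, closure ({z} : Set V.X))ᶜ, hclosed.isOpen_compl⟩
  have hxW : x ∈ W := by
    intro hx
    obtain ⟨z, hz, hzx⟩ := Set.mem_iUnion₂.1 hx
    have h1 : z ⤳ x := specializes_iff_mem_closure.2 hzx
    have := hh z hz.1 h1 h0
    have h2 := hz.2
    omega
  have hW : ∀ z ∈ W, coheight z = 1 → 0 ≤ Scheme.ord h z + coef D z := by
    intro z hz hz1
    by_contra hc
    exact hz (Set.mem_iUnion₂.2 ⟨z, ⟨hz1, not_le.1 hc⟩, subset_closure rfl⟩)
  obtain ⟨m, hm, s, hs, U, hUa, hxU, hUW, hU⟩ := hL.exists_small (ufd V) x W hxW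
  have hs0 : s ≠ 0 := ((hU x).1 hxU).1
  obtain ⟨k, hk, hkb⟩ := exists_bound hfin
  obtain ⟨h1, -⟩ := mul_pow_section (A := m • L) (D := D) (s := s) (g := h)
    (U := (U : Set V.X)) (V := {y | y ∈ U ∧ GenAt D h y}) (k := k)
    (fun z hz => hz.1) hs hs0 hU h0
    (fun z hz hz1 => hW z (hUW hz) hz1)
    (fun z hz => ⟨fun h => h.2, fun h => ⟨hz, h⟩⟩) hkb
  refine ⟨k * m, by positivity, s ^ k, ?_, ?_, ?_⟩
  · rw [mul_smul]
    exact H0_pow hs k
  · rw [mul_smul]
    exact (genAt_pow_iff hk).2 ((hU x).1 hxU)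
  · rwa [mul_smul]

/-- The embedding of the section ring in `K(V)(T)`. -/
noncomputable def alpha (L : Q.Div V.X) : secRing L →+* KT V :=
  ((iT V).comp (secRing L).val : secRing L →ₐ[ℂ] KT V)

theorem alpha_apply (f : secRing L) : alpha L f = iT V f.1 := rfl

theorem alpha_injective (L : Q.Div V.X) : Function.Injective (alpha L) := fun f g h =>
  Subtype.ext (iT_injective V h)

theorem alpha_mono {m : ℕ} {a : V.K} (ha : a ∈ H0 (coef (m • L))) :
    alpha L (mono L ha) = iT V (monomial m a) := rfl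

/-- A maximal ideal of the section ring different from the vertex lies over a point. -/
theorem exists_center_max (hL : IsAmple L) (p : Ideal (secRing L)) (hp : p.IsMaximal)
    (hs : ∃ k > 0, ∃ s ∈ grade L k, s ∉ p) :
    ∃ x : V.X, ∀ (m : ℕ) (a : V.K) (ha : a ∈ H0 (coef (m • L))), GenAt (m • L) a x →
      mono L ha ∉ p := by
  obtain ⟨k, hk, s, hsk, hsp⟩ := hs
  obtain ⟨W, hW1, hW2, hW3⟩ := exists_valuation (alpha L) p hp (alpha_injective L)
  obtain ⟨x, hx⟩ := exists_center V (W.comap ((algebraMap (Polynomial V.K) (KT V)).comp C))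
    fun c => hW1 (algebraMap ℂ (secRing L) c)
  have hx' : ∀ a ∈ locRing V x, iT V (C a) ∈ W := by
    rintro _ ⟨a, rfl⟩
    exact hx a
  refine ⟨x, fun m a ha hgen hmem => ?_⟩
  set s₀ := s.1.coeff k with hs₀
  have hs₀mem : s₀ ∈ H0 (coef (k • L)) := s.2 k
  have h1 : iT V (C (s₀ ^ m / a ^ k)) ∈ W := hx' _ (pow_div_mem hs₀mem hgen)
  have h2 : (alpha L s) ^ m = iT V (C (s₀ ^ m / a ^ k)) * (alpha L (mono L ha)) ^ k := by
    have h0 : (s.1) ^ m = C (s₀ ^ m / a ^ k) * (monomial m a) ^ k := by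
      rw [eq_monomial hsk, monomial_pow, monomial_pow, C_mul_monomial,
        div_mul_cancel₀ _ (pow_ne_zero _ hgen.1), mul_comm m k]
    rw [alpha_apply, alpha_mono, ← map_pow, h0, map_mul, map_pow]
  have h3 := congrArg W.valuation h2
  rw [map_pow, map_mul, map_pow, hW3 s hsp, one_pow] at h3
  have h4 : W.valuation (iT V (C (s₀ ^ m / a ^ k))) ≤ 1 := (W.valuation_le_one_iff _).2 h1
  have h5 : W.valuation (alpha L (mono L ha)) ^ k < 1 := pow_lt_one' (hW2 _ hmem) hk.ne'
  have h6 : (1 : W.ValueGroup) ≤ W.valuation (alpha L (mono L ha)) ^ k := by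
    calc (1 : W.ValueGroup) = _ := h3
      _ ≤ 1 * W.valuation (alpha L (mono L ha)) ^ k := mul_le_mul_left h4 _
      _ = _ := one_mul _
  exact absurd h5 (not_lt.2 h6)

/-- `O(1)` is invertible on the cone. -/
theorem free_of_center (hL : IsAmple L) (p : Ideal (secRing L)) {x : V.X}
    (hx : ∀ (m : ℕ) (a : V.K) (ha : a ∈ H0 (coef (m • L))), GenAt (m • L) a x → mono L ha ∉ p) :
    ∃ k, ∃ s ∈ grade L k, ∃ s' ∈ grade L (k + 1), s ∉ p ∧ s' ∉ p := by
  obtain ⟨m₀, hm₀⟩ := hL.forall_add (ufd V) 0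
  have hex : ∀ m ≥ m₀, ∃ u ∈ H0 (coef (m • L)), GenAt (m • L) u x := by
    intro m hm
    have := (hm₀ m hm).2
    rw [add_zero] at this
    exact this x
  obtain ⟨u₁, hu₁, hu₁x⟩ := hex m₀ le_rfl
  obtain ⟨u₂, hu₂, hu₂x⟩ := hex (m₀ + 1) (Nat.le_succ _)
  exact ⟨m₀, mono L hu₁, mono_mem hu₁, mono L hu₂, mono_mem hu₂, hx _ _ hu₁ hu₁x, hx _ _ hu₂ hu₂x⟩

section Chart

variable (x : V.X) (g : V.K)

/-- The embedding of `O_x[τ]`, `τ = gT`. -/
noncomputable def psi : Polynomial (V.X.presheaf.stalk x) →+* Polynomial V.K :=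
  (Polynomial.compRingHom (C g * Polynomial.X)).comp
    (Polynomial.mapRingHom (algebraMap (V.X.presheaf.stalk x) V.K))

theorem coeff_psi (b : Polynomial (V.X.presheaf.stalk x)) (m : ℕ) :
    (psi x g b).coeff m = algebraMap (V.X.presheaf.stalk x) V.K (b.coeff m) * g ^ m := by
  change ((b.map (algebraMap (V.X.presheaf.stalk x) V.K)).comp (C g * Polynomial.X)).coeff m = _
  rw [Polynomial.comp_C_mul_X_coeff, Polynomial.coeff_map]

theorem psi_injective (hg : g ≠ 0) : Function.Injective (psi x g) := by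
  intro b b' h
  ext m
  have h1 := congrArg (fun f => f.coeff m) h
  simp only [coeff_psi] at h1
  exact FaithfulSMul.algebraMap_injective _ V.K (mul_right_cancel₀ (pow_ne_zero _ hg) h1)

variable {x g}

/-- The coefficients of the elements of the section ring in a chart. -/
theorem coeff_div_mem (hg : GenAt L g x) {m : ℕ} {a : V.K} (ha : a ∈ H0 (coef (m • L))) :
    a / g ^ m ∈ locRing V x := by
  have h := pow_div_mem (c := 1) ha (by rwa [one_smul])
  rwa [pow_one] at h

theorem exists_psi (hg : GenAt L g x) (f : secRing L) : ∃ b, psi x g b = f.1 := by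
  choose o ho using fun m => mem_locRing.1 (coeff_div_mem hg (f.2 m))
  refine ⟨∑ m ∈ f.1.support, monomial m (o m), ?_⟩
  ext m
  rw [coeff_psi, Polynomial.finsetSum_coeff]
  simp only [Polynomial.coeff_monomial, Finset.sum_ite_eq']
  split_ifs with h
  · rw [ho, div_mul_cancel₀ _ (pow_ne_zero _ hg.1)]
  · rw [map_zero, zero_mul, eq_comm]
    by_contra hc
    exact h (Polynomial.mem_support_iff.2 hc)

/-- The condition that the prime ideal `p` of the section ring lies over `x`. -/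
def LiesOver (p : Ideal (secRing L)) (x : V.X) : Prop :=
  ∀ (m : ℕ) (a : V.K) (ha : a ∈ H0 (coef (m • L))), GenAt (m • L) a x → mono L ha ∉ p

theorem monomial_mem_locF (hL : IsAmple L) {p : Ideal (secRing L)} [p.IsPrime]
    (hp : LiesOver p x) (hg : GenAt L g x) {o : V.K} (ho : o ∈ locRing V x) (i : ℕ) :
    iT V (monomial i (o * g ^ i)) ∈ locF (alpha L) (alpha_injective L) p := by
  obtain ⟨b, hb⟩ := ho
  have hnn : ∀ z : V.X, coheight z = 1 → z ⤳ x → o * g ^ i ≠ 0 →
      0 ≤ Scheme.ord (o * g ^ i) z + coef (i • L) z := by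
    intro z hz hzx h0
    have ho0 : o ≠ 0 := left_ne_zero_of_mul h0
    rw [Scheme.ord_mul ho0 (pow_ne_zero _ hg.1), ord_pow hg.1, coef_nsmul]
    have h1 := hg.2 z hz hzx
    have h2 : 0 ≤ Scheme.ord o z := by
      have h3 : o ∈ locRing V z := locRing_le hzx ⟨b, hb⟩
      exact ord_nonneg_of_locRing h3
    have h4 : (i : ℤ) * (Scheme.ord g z + coef L z) = 0 := by rw [h1, mul_zero]
    linarith
  obtain ⟨m, hm, s, hs, hsx, hprod⟩ := exists_denominator hL (i • L) hnn
  rw [← add_smul] at hprod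
  rw [mem_range_jLoc]
  refine ⟨mono L hprod, mono L hs, hp m s hs hsx, ?_⟩
  rw [alpha_mono, alpha_mono, ← map_mul, monomial_mul_monomial]

theorem psi_mem_locF (hL : IsAmple L) {p : Ideal (secRing L)} [p.IsPrime]
    (hp : LiesOver p x) (hg : GenAt L g x) (b : Polynomial (V.X.presheaf.stalk x)) :
    iT V (psi x g b) ∈ locF (alpha L) (alpha_injective L) p := by
  induction b using Polynomial.induction_on' with
  | add p q hp hq =>
    rw [map_add, map_add]
    exact add_mem hp hq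
  | monomial i o =>
    have h1 : psi x g (monomial i o) =
        monomial i (algebraMap (V.X.presheaf.stalk x) V.K o * g ^ i) := by
      ext m
      rw [coeff_psi, coeff_monomial, coeff_monomial]
      split_ifs with h
      · rw [h]
      · rw [map_zero, zero_mul]
    rw [h1]
    exact monomial_mem_locF hL hp hg ⟨o, rfl⟩ i

end Chart

/-- The stalks of `V` are regular. -/
theorem isRegularRing_stalk (V : Q.Var) (x : V.X) : IsRegularRing (V.X.presheaf.stalk x) := by
  obtain ⟨_, ⟨U, hU, rfl⟩, hxU, -⟩ :=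
    V.X.isBasis_affineOpens.exists_subset_of_mem_open (Set.mem_univ x) isOpen_univ
  have hT : IsAffineOpen (⊤ : Q.SpecC.Opens) := isAffineOpen_top _
  have e : U ≤ (V.X ↘ Q.SpecC) ⁻¹ᵁ (⊤ : Q.SpecC.Opens) := le_top
  have hs := (V.X ↘ Q.SpecC).smooth_appLE hT hU e
  have : Nonempty U := ⟨⟨x, hxU⟩⟩
  algebraize [((V.X ↘ Q.SpecC).appLE ⊤ U e).hom]
  let eR : ℂ ≃+* Γ(Q.SpecC, ⊤) :=
    (Scheme.ΓSpecIso (CommRingCat.of ℂ)).symm.commRingCatIsoToRingEquiv
  have : IsRegularRing Γ(Q.SpecC, ⊤) := IsRegularRing.of_ringEquiv eR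
  let _ := TopCat.Presheaf.algebra_section_stalk V.X.presheaf (U := U) ⟨x, hxU⟩
  have := hU.isLocalization_stalk ⟨x, hxU⟩
  exact R.isRegularRing_of_smooth_of_atPrime Γ(Q.SpecC, ⊤) Γ(V.X, U) (V.X.presheaf.stalk x)
    (hU.primeIdealOf ⟨x, hxU⟩).asIdeal

/-- Local coordinates. -/
theorem exists_frame_dim (V : Q.Var) (y : V.X) :
    ∃ (t : Fin V.dim → V.K) (w : Fin V.dim → V.Der),
    (∀ j, t j ∈ locRing V y) ∧ (∀ i, RegDer y (w i)) ∧
    (∀ i j, w i (t j) = if i = j then 1 else 0) ∧ (∀ v : V.Der, v = ∑ i, v (t i) • w i) ∧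
    ringKrullDim (V.X.presheaf.stalk y) ≤ V.dim := by
  obtain ⟨n, t, w, h1, h2, h3, h4, h5⟩ := exists_frame_at_dim V y
  obtain ⟨b, -, -⟩ := exists_basis h3 h4
  have hn : V.dim = n := by
    have := Module.finrank_eq_card_basis b
    rw [Fintype.card_fin] at this
    exact this
  subst hn
  exact ⟨t, w, h1, h2, h3, h4, h5⟩

/-- The local ring of the section ring at a prime ideal over `x` is regular, of dimension at most
`dim V + 1`. -/
theorem regular_le (hL : IsAmple L) {p : Ideal (secRing L)} [p.IsPrime] {x : V.X}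
    (hp : LiesOver p x) :
    IsRegularLocalRing (Localization.AtPrime p) ∧
      ringKrullDim (Localization.AtPrime p) ≤ (V.dim + 1 : ℕ) := by
  have := ufd V x
  obtain ⟨g, hg⟩ := exists_genAt L x
  have hreg := isRegularRing_stalk V x
  obtain ⟨-, -, -, -, -, -, hdim⟩ := exists_frame_dim V x
  obtain ⟨q, hq, ⟨e⟩⟩ := sandwich (alpha L) (alpha_injective L) p
    ((algebraMap (Polynomial V.K) (KT V)).comp (psi x g))
    (fun a b h => psi_injective x g hg.1 (iT_injective V h))
    (fun a => by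
      obtain ⟨b, hb⟩ := exists_psi hg a
      exact ⟨b, congrArg (iT V) hb⟩)
    (fun b => psi_mem_locF hL hp hg b)
  have h1 : IsRegularLocalRing (Localization.AtPrime q) := inferInstance
  refine ⟨IsRegularLocalRing.of_ringEquiv e.symm, ?_⟩
  rw [ringKrullDim_eq_of_ringEquiv e, IsLocalization.AtPrime.ringKrullDim_eq_height q]
  refine (Ideal.height_le_ringKrullDim_of_ne_top hq.ne_top).trans ?_
  rw [Polynomial.ringKrullDim_of_isNoetherianRing]
  push_cast
  gcongr

end Vale.Agent.P271.Sch
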