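import Vale.Agent.P271.Sch.Dim
import Vale.Agent.P271.Sch.Hub
import Vale.Agent.P299.Q.SemiPos

/-!
# The cone of an ample divisor, and the complex points of the section ring over a closed point
-/

open AlgebraicGeometry Order Polynomial IsLocalRing

namespace Vale.Agent.P271.Sch

open Vale.Agent.P299 Vale.Agent.P299.Q Vale.Agent.P299.G

variable {V : Q.Var} {L : Q.Div V.X}

/-- The graded cone of a polarised variety. -/
noncomputable def cone (hL : IsAmple L) : GCone V.dim where
  R := secRing L
  A := grade L
  gr := gradedAlgebra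
  finiteType := secRing_finiteType hL
  zero := grade_zero
  regular := by
    intro p hp hs
    obtain ⟨x, hx⟩ := exists_center_max hL p hp hs
    exact regular_eq hL (p := p) (x := x) hx
  free := by
    intro p hp hs
    obtain ⟨x, hx⟩ := exists_center_max hL p hp hs
    exact free_of_center hL p hx

section Val

variable (V)

/-- The evaluation of regular functions at a closed point. -/
noncomputable def vl (x : V.X) (hx : IsClosed {x}) : V.X.presheaf.stalk x →+* ℂ where
  toFun a := (exists_hasValue x hx a).choose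
  map_one' := by
    refine (exists_hasValue x hx 1).choose_spec.unique ?_
    rw [map_one, ← map_one (algebraMap ℂ V.K)]
    exact hasValue_const x 1
  map_mul' a b := by
    refine (exists_hasValue x hx (a * b)).choose_spec.unique ?_
    rw [map_mul]
    exact (exists_hasValue x hx a).choose_spec.mul (exists_hasValue x hx b).choose_spec
  map_zero' := by
    refine (exists_hasValue x hx 0).choose_spec.unique ?_
    rw [map_zero, ← map_zero (algebraMap ℂ V.K)]
    exact hasValue_const x 0
  map_add' a b := by
    refine (exists_hasValue x hx (a + b)).choose_spec.unique ?_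
    rw [map_add]
    exact (exists_hasValue x hx a).choose_spec.add (exists_hasValue x hx b).choose_spec

variable {V}

theorem vl_spec (x : V.X) (hx : IsClosed {x}) (a : V.X.presheaf.stalk x) :
    HasValue (toK x a) x (vl V x hx a) := (exists_hasValue x hx a).choose_spec

theorem vl_unit {x : V.X} (hx : IsClosed {x}) {a : V.X.presheaf.stalk x} (h : vl V x hx a ≠ 0) :
    IsUnit a := by
  by_contra hc
  apply h
  refine (vl_spec x hx a).unique ⟨a, (mem_maximalIdeal _).2 hc, ?_⟩
  rw [map_zero, sub_zero]

theorem vl_ne_zero {x : V.X} (hx : IsClosed {x}) {a : V.X.presheaf.stalk x} (ha : IsUnit a) :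
    vl V x hx a ≠ 0 := (vl_spec x hx a).ne_zero ha

end Val

section PointOver

variable {x : V.X} {g : V.K} (hx : IsClosed {x}) (hg : GenAt L g x)

/-- The elements of the section ring in the chart. -/
noncomputable def del (hg : GenAt L g x) : secRing L →+* Polynomial (V.X.presheaf.stalk x) where
  toFun f := (exists_psi hg f).choose
  map_one' := psi_injective x g hg.1 (by
    rw [(exists_psi hg 1).choose_spec, map_one]
    rfl)
  map_mul' f f' := psi_injective x g hg.1 (by
    rw [(exists_psi hg (f * f')).choose_spec, map_mul, (exists_psi hg f).choose_spec,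
      (exists_psi hg f').choose_spec]
    rfl)
  map_zero' := psi_injective x g hg.1 (by
    rw [(exists_psi hg 0).choose_spec, map_zero]
    rfl)
  map_add' f f' := psi_injective x g hg.1 (by
    rw [(exists_psi hg (f + f')).choose_spec, map_add, (exists_psi hg f).choose_spec,
      (exists_psi hg f').choose_spec]
    rfl)

theorem psi_del (hg : GenAt L g x) (f : secRing L) : psi x g (del hg f) = f.1 :=
  (exists_psi hg f).choose_spec

theorem coeff_del (hg : GenAt L g x) (f : secRing L) (m : ℕ) :
    toK x ((del hg f).coeff m) * g ^ m = f.1.coeff m := by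
  rw [← psi_del hg f, coeff_psi]

/-- The point of the cone over the closed point `x`. -/
noncomputable def pt : secRing L →ₐ[ℂ] ℂ where
  toRingHom := (Polynomial.eval₂RingHom (vl V x hx) 1).comp (del hg)
  commutes' c := by
    change Polynomial.eval₂ (vl V x hx) 1 (del hg (algebraMap ℂ (secRing L) c)) = c
    have h1 : del hg (algebraMap ℂ (secRing L) c) =
        C ((V.X.presheaf.germ ⊤ x (TopologicalSpace.Opens.mem_top x)).hom (constants V.X c)) := by
      apply psi_injective x g hg.1
      rw [psi_del]
      ext m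
      rw [coeff_psi, coeff_C]
      change (algebraMap ℂ (Polynomial V.K) c).coeff m = _
      rw [Polynomial.algebraMap_apply, coeff_C]
      split_ifs with h
      · rw [h, pow_zero, mul_one]
        exact (toK_germ_const x c).symm
      · rw [map_zero, zero_mul]
    rw [h1, eval₂_C]
    refine (vl_spec x hx _).unique ?_
    rw [toK_germ_const]
    exact hasValue_const x c

theorem pt_apply (f : secRing L) :
    pt hx hg f = Polynomial.eval₂ (vl V x hx) 1 (del hg f) := rfl

/-- The maximal ideal of the point. -/
noncomputable abbrev ptI : Ideal (secRing L) := RingHom.ker (pt hx hg)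

instance ptI_isMaximal : (ptI hx hg).IsMaximal :=
  RingHom.ker_isMaximal_of_surjective _ fun c => ⟨algebraMap ℂ _ c, (pt hx hg).commutes c⟩

theorem liesOver_pt : LiesOver (ptI hx hg) x := by
  intro m a ha hgen hmem
  have h1 : pt hx hg (mono L ha) = 0 := hmem
  rw [pt_apply] at h1
  have h2 : ∀ k, k ≠ m → (del hg (mono L ha)).coeff k = 0 := by
    intro k hk
    have h3 := coeff_del hg (mono L ha) k
    have h4 : (mono L ha).1.coeff k = 0 := mono_mem ha k hk
    rw [h4] at h3
    have h5 := (mul_eq_zero.1 h3).resolve_right (pow_ne_zero _ hg.1)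
    exact toK_injective x (by rw [h5, map_zero])
  have h3 : del hg (mono L ha) = monomial m ((del hg (mono L ha)).coeff m) := by
    ext k
    rw [coeff_monomial]
    split_ifs with h
    · subst h
      rfl
    · exact h2 k (Ne.symm h)
  rw [h3, eval₂_monomial, one_pow, mul_one] at h1
  refine vl_ne_zero hx ?_ h1
  have := ufd V x
  obtain ⟨u, hu, hug⟩ := exists_unit_of_forall_ord_eq_zero V.dvr x (a / g ^ m)
    (div_ne_zero hgen.1 (pow_ne_zero _ hg.1)) (fun z hz hzx => by
      rw [ord_div hgen.1 (pow_ne_zero _ hg.1) z, ord_pow hg.1]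
      have h4 := hgen.2 z hz hzx
      have h5 := hg.2 z hz hzx
      rw [coef_nsmul] at h4
      have h6 : (m : ℤ) * (Scheme.ord g z + coef L z) = 0 := by rw [h5, mul_zero]
      linarith)
  have h4 : (del hg (mono L ha)).coeff m = u := by
    apply toK_injective x
    rw [hug, eq_div_iff (pow_ne_zero _ hg.1), coeff_del]
    change (monomial m a).coeff m = a
    rw [coeff_monomial, if_pos rfl]
  rw [h4]
  exact hu

/-- A function of the base which is regular on the cone at the point is regular at `x`. -/
theorem mem_locRing_of_locF {o : V.K}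
    (ho : iT V (C o) ∈ locF (alpha L) (alpha_injective L) (ptI hx hg)) : o ∈ locRing V x := by
  obtain ⟨a, s, hs, h⟩ := (mem_range_jLoc _ _ _).1 ho
  have hs' : pt hx hg s ≠ 0 := hs
  rw [pt_apply, Polynomial.eval₂_eq_sum_range] at hs'
  obtain ⟨m, -, hm⟩ := Finset.exists_ne_zero_of_sum_ne_zero hs'
  rw [one_pow, mul_one] at hm
  have hu := vl_unit hx hm
  have h1 : C o * s.1 = a.1 := by
    apply iT_injective V
    rw [map_mul]
    exact h
  have h2 : o * s.1.coeff m = a.1.coeff m := by rw [← h1, coeff_C_mul]
  rw [← coeff_del hg s m, ← coeff_del hg a m, ← mul_assoc] at h2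
  have h3 := mul_right_cancel₀ (pow_ne_zero _ hg.1) h2
  obtain ⟨u, hu'⟩ := hu
  refine ⟨(del hg a).coeff m * ((u⁻¹ : (V.X.presheaf.stalk x)ˣ) : V.X.presheaf.stalk x), ?_⟩
  rw [map_mul]
  change toK x _ * toK x _ = o
  rw [← h3, ← hu', mul_assoc, ← map_mul, Units.mul_inv, map_one, mul_one]

end PointOver

/-- `τ` is a unit at the points over `x`. -/
theorem inv_tau_mem (hL : IsAmple L) {p : Ideal (secRing L)} [p.IsPrime] {x : V.X} {g : V.K}
    (hp : LiesOver p x) (hg : GenAt L g x) :
    (tau g)⁻¹ ∈ locF (alpha L) (alpha_injective L) p := by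
  obtain ⟨m₀, hm₀⟩ := hL.forall_add (ufd V) 0
  have hex : ∀ m ≥ m₀, ∃ u ∈ H0 (coef (m • L)), GenAt (m • L) u x := by
    intro m hm
    have := (hm₀ m hm).2
    rw [add_zero] at this
    exact this x
  obtain ⟨u₁, hu₁, hu₁x⟩ := hex m₀ le_rfl
  obtain ⟨u₂, hu₂, hu₂x⟩ := hex (m₀ + 1) (Nat.le_succ _)
  have := ufd V x
  obtain ⟨b, hb⟩ := exists_of_forall_ord_nonneg V.dvr x (u₂ / (u₁ * g)) (fun z hz hzx => by
    rw [ord_div hu₂x.1 (mul_ne_zero hu₁x.1 hg.1) z, Scheme.ord_mul hu₁x.1 hg.1]
    have h4 := hu₁x.2 z hz hzx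
    have h5 := hg.2 z hz hzx
    have h6 := hu₂x.2 z hz hzx
    rw [coef_nsmul] at h4 h6
    push_cast at h6
    linarith)
  have hC : iT V (C (u₂ / (u₁ * g))) ∈ locF (alpha L) (alpha_injective L) p :=
    C_mem_locF hL hp hg ⟨b, hb⟩
  have h1 : (tau g)⁻¹ = iT V (C (u₂ / (u₁ * g))) * alpha L (mono L hu₁) *
      (alpha L (mono L hu₂))⁻¹ := by
    have h0 : alpha L (mono L hu₂) ≠ 0 := by
      rw [alpha_mono, map_ne_zero_iff _ (iT_injective V)]
      exact (monomial_eq_zero_iff _ _).not.2 hu₂x.1
    have h00 : tau g ≠ 0 := by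
      rw [tau, map_ne_zero_iff _ (iT_injective V)]
      exact (monomial_eq_zero_iff _ _).not.2 hg.1
    rw [eq_mul_inv_iff_mul_eq₀ h0, inv_mul_eq_iff_eq_mul₀ h00, alpha_mono, alpha_mono, tau,
      ← map_mul, ← map_mul, C_mul_monomial, monomial_mul_monomial, add_comm 1 m₀]
    congr 2
    have := hu₁x.1
    have := hg.1
    field_simp
  rw [h1]
  exact mul_mem (mul_mem hC (alpha_mem _ _ _ _)) (inv_alpha_mem _ _ _ (hp _ _ hu₂ hu₂x))

end Vale.Agent.P271.Sch
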