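import Vale.Agent.P299.Q.FinDim
import Vale.Agent.P299.Q.Frame
import Vale.Agent.P299.Q.Const
import Vale.Agent.P299.R.Stalks
import Mathlib.RingTheory.GradedAlgebra.Basic

/-!
# The section ring of a divisor on a smooth projective variety
-/

open AlgebraicGeometry Order Polynomial DirectSum

namespace Vale.Agent.P271.Sch

open Vale.Agent.P299 Vale.Agent.P299.Q

variable {V : Q.Var} (L : Q.Div V.X)

/-- The section ring `⨁ H⁰(V, mL)`, as a subalgebra of `K(V)[T]`. -/
noncomputable def secRing : Subalgebra ℂ (Polynomial V.K) where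
  carrier := {f | ∀ m, f.coeff m ∈ H0 (coef (m • L))}
  mul_mem' := by
    intro f g hf hg m
    rw [Polynomial.coeff_mul]
    refine Submodule.sum_mem _ fun ij hij => ?_
    rw [Finset.mem_antidiagonal] at hij
    have h := H0_mul (hf ij.1) (hg ij.2)
    rwa [← add_smul, hij] at h
  add_mem' := by
    intro f g hf hg m
    rw [Polynomial.coeff_add]
    exact Submodule.add_mem _ (hf m) (hg m)
  algebraMap_mem' := by
    intro c m
    rw [Polynomial.algebraMap_apply, Polynomial.coeff_C]
    split_ifs with h
    · rw [h, zero_smul, Algebra.algebraMap_eq_smul_one]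
      exact Submodule.smul_mem _ _ one_mem_H0_zero
    · exact Submodule.zero_mem _

theorem mem_secRing {f : Polynomial V.K} :
    f ∈ secRing L ↔ ∀ m, f.coeff m ∈ H0 (coef (m • L)) := Iff.rfl

theorem monomial_mem {m : ℕ} {a : V.K} (ha : a ∈ H0 (coef (m • L))) :
    Polynomial.monomial m a ∈ secRing L := by
  intro k
  rw [Polynomial.coeff_monomial]
  split_ifs with h
  · rwa [← h]
  · exact Submodule.zero_mem _

/-- The homogeneous element `a T^m`. -/
noncomputable def mono {m : ℕ} {a : V.K} (ha : a ∈ H0 (coef (m • L))) : secRing L :=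
  ⟨Polynomial.monomial m a, monomial_mem L ha⟩

/-- The homogeneous elements of degree `m`. -/
noncomputable def grade (m : ℕ) : Submodule ℂ (secRing L) where
  carrier := {f | ∀ k, k ≠ m → f.1.coeff k = 0}
  add_mem' := by
    intro f g hf hg k hk
    change (f.1 + g.1).coeff k = 0
    rw [Polynomial.coeff_add, hf k hk, hg k hk, add_zero]
  zero_mem' := fun k _ => Polynomial.coeff_zero k
  smul_mem' := by
    intro c f hf k hk
    change (c • f.1).coeff k = 0
    rw [Polynomial.coeff_smul, hf k hk, smul_zero]

variable {L}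

theorem mem_grade {m : ℕ} {f : secRing L} : f ∈ grade L m ↔ ∀ k, k ≠ m → f.1.coeff k = 0 := Iff.rfl

theorem eq_monomial {m : ℕ} {f : secRing L} (hf : f ∈ grade L m) :
    f.1 = Polynomial.monomial m (f.1.coeff m) := by
  ext k
  rw [Polynomial.coeff_monomial]
  split_ifs with h
  · rw [h]
  · exact hf k (Ne.symm h)

theorem mono_mem {m : ℕ} {a : V.K} (ha : a ∈ H0 (coef (m • L))) : mono L ha ∈ grade L m := by
  intro k hk
  change (Polynomial.monomial m a).coeff k = 0
  rw [Polynomial.coeff_monomial, if_neg (Ne.symm hk)]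

instance gradedMonoid : SetLike.GradedMonoid (grade L) where
  one_mem := by
    intro k hk
    change (1 : Polynomial V.K).coeff k = 0
    rw [Polynomial.coeff_one, if_neg hk]
  mul_mem := by
    intro i j f g hf hg k hk
    change (f.1 * g.1).coeff k = 0
    rw [eq_monomial hf, eq_monomial hg, Polynomial.monomial_mul_monomial, Polynomial.coeff_monomial,
      if_neg (Ne.symm hk)]

theorem coeff_coe (x : ⨁ i, grade L i) (i : ℕ) :
    ((DirectSum.coeAddMonoidHom (grade L) x : secRing L) : Polynomial V.K).coeff i =
      ((x i : secRing L) : Polynomial V.K).coeff i := by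
  induction x using DirectSum.induction_on with
  | zero =>
    rw [map_zero]
    rfl
  | of j y =>
    rw [DirectSum.coeAddMonoidHom_of]
    by_cases h : j = i
    · subst h
      rw [DirectSum.of_eq_same]
    · rw [DirectSum.of_eq_of_ne _ _ _ (Ne.symm h)]
      exact y.2 i (Ne.symm h)
  | add x y hx hy =>
    rw [map_add, DirectSum.add_apply]
    rw [AddMemClass.coe_add, AddMemClass.coe_add, AddMemClass.coe_add, Polynomial.coeff_add,
      Polynomial.coeff_add, hx, hy]

/-- The homogeneous component. -/
noncomputable def comp (f : secRing L) (i : ℕ) : grade L i :=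
  ⟨mono L (f.2 i), mono_mem _⟩

theorem isInternal : DirectSum.IsInternal (grade L) := by
  classical
  constructor
  · intro x y hxy
    refine DFinsupp.ext fun i => ?_
    have h := coeff_coe x i
    rw [hxy, coeff_coe y i] at h
    apply Subtype.ext
    apply Subtype.ext
    rw [eq_monomial (x i).2, eq_monomial (y i).2, ← h]
  · intro f
    refine ⟨∑ i ∈ f.1.support, DirectSum.of (fun i => grade L i) i (comp f i), ?_⟩
    rw [map_sum]
    simp only [DirectSum.coeAddMonoidHom_of]
    apply Subtype.ext
    rw [AddSubmonoidClass.coe_finsetSum]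
    exact (Polynomial.as_sum_support f.1).symm

noncomputable instance gradedAlgebra : GradedAlgebra (grade L) where
  toDecomposition := isInternal.chooseDecomposition

/-- The local rings are factorial. -/
theorem ufd (V : Q.Var) (x : V.X) : UniqueFactorizationMonoid (V.X.presheaf.stalk x) :=
  factorialStalks V x

/-- `H⁰(V, 0)` consists of the constants. -/
theorem grade_zero (f : secRing L) (hf : f ∈ grade L 0) :
    ∃ c : ℂ, algebraMap ℂ (secRing L) c = f := by
  have h := f.2 0
  rw [zero_smul, mem_H0] at h
  have h1 : ∀ x : V.X, coheight x = 1 → 0 ≤ Scheme.ord (f.1.coeff 0) x := by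
    intro x hx
    by_cases h0 : f.1.coeff 0 = 0
    · rw [h0]; simp
    · simpa using h x hx h0
  obtain ⟨c, hc⟩ := exists_constant_of_ord_nonneg V (ufd V) _ h1
  refine ⟨c, Subtype.ext ?_⟩
  rw [eq_monomial hf, ← hc]
  rfl

end Vale.Agent.P271.Sch
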